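import Vale.Agent.N080.Close

/-!
From approximation by functions with comparison with cones at all scales, with a power rate, to a
pointwise expansion of order `1 + β`.
-/

set_option linter.unusedSectionVars false

namespace Vale.Agent.N080

open Vale.Agent.P080 Metric Set Filter
open scoped RealInnerProductSpace Topology

section

variable {E : Type*} [NormedAddCommGroup E] [InnerProductSpace ℝ E]

theorem norm_le_of_inner_le {q : E} {t B : ℝ} (ht : 0 < t) (hB : 0 ≤ B)
    (h : ∀ w : E, ‖w‖ ≤ t → ⟪q, w⟫ ≤ B * t) : ‖q‖ ≤ B := by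
  rcases (norm_nonneg q).eq_or_lt with h0 | h0
  · rw [← h0]; exact hB
  · have h1 := h ((t / ‖q‖) • q) (by
      rw [norm_smul, Real.norm_of_nonneg (by positivity)]
      exact le_of_eq (by field_simp))
    rw [real_inner_smul_right, real_inner_self_eq_norm_sq] at h1
    have h2 : t / ‖q‖ * ‖q‖ ^ 2 = ‖q‖ * t := by field_simp
    rw [h2] at h1
    exact le_of_mul_le_mul_right h1 ht

theorem campanato [CompleteSpace E] {β : ℝ} (hβ : 0 < β) (hβ1 : β ≤ 1) :
    ∃ D : ℝ, 1 ≤ D ∧ ∀ (u : E → ℝ) (c : E) (t₀ A : ℝ), 0 < t₀ → 0 ≤ A →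
      (∀ t, 0 < t → t ≤ t₀ → ∃ p : E, ∀ y, ‖y - c‖ ≤ t →
        |u y - u c - ⟪p, y - c⟫| ≤ A * t * (t / t₀) ^ β) →
      ∃ p : E, ∀ y, ‖y - c‖ ≤ t₀ →
        |u y - u c - ⟪p, y - c⟫| ≤ D * A * ‖y - c‖ * (‖y - c‖ / t₀) ^ β := by
  set q : ℝ := (1 / 2 : ℝ) ^ β with hq
  have hq0 : 0 < q := by positivity
  have hq1 : q < 1 := Real.rpow_lt_one (by norm_num) (by norm_num) hβ
  have hq2 : 1 / 2 ≤ q := by
    calc (1 / 2 : ℝ) = (1 / 2 : ℝ) ^ (1 : ℝ) := by rw [Real.rpow_one]
      _ ≤ q := Real.rpow_le_rpow_of_exponent_ge (by norm_num) (by norm_num) hβ1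
  have hq3 : 0 < 1 - q := by linarith
  refine ⟨2 * (2 + 3 / (1 - q)), by have : 0 < 3 / (1 - q) := by positivity
                                    linarith, ?_⟩
  intro u c t₀ A ht₀ hA h
  have hpow : ∀ n : ℕ, ((1 / 2 : ℝ) ^ n) ^ β = q ^ n := by
    intro n
    rw [hq, ← Real.rpow_natCast, ← Real.rpow_natCast, ← Real.rpow_mul (by norm_num),
      ← Real.rpow_mul (by norm_num), mul_comm]
  have hn : ∀ n : ℕ, ∃ p : E, ∀ y, ‖y - c‖ ≤ t₀ * (1 / 2) ^ n →
      |u y - u c - ⟪p, y - c⟫| ≤ A * (t₀ * (1 / 2) ^ n) * q ^ n := by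
    intro n
    have h1 : (1 / 2 : ℝ) ^ n ≤ 1 := pow_le_one₀ (by norm_num) (by norm_num)
    obtain ⟨p, hp⟩ := h (t₀ * (1 / 2) ^ n) (by positivity) (by nlinarith)
    refine ⟨p, fun y hy => ?_⟩
    have h2 := hp y hy
    rwa [mul_div_cancel_left₀ _ ht₀.ne', hpow] at h2
  choose p hp using hn
  have hstep : ∀ n, dist (p n) (p (n + 1)) ≤ 3 * A * q ^ n := by
    intro n
    rw [dist_eq_norm]
    have hh : (0 : ℝ) < (1 / 2) ^ n := by positivity
    refine norm_le_of_inner_le (t := t₀ * (1 / 2) ^ (n + 1)) (by positivity) (by positivity) ?_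
    intro w hw
    have h1 := hp n (c + w) (by
      rw [add_sub_cancel_left]
      refine hw.trans ?_
      rw [pow_succ]
      nlinarith)
    have h2 := hp (n + 1) (c + w) (by rwa [add_sub_cancel_left])
    rw [add_sub_cancel_left] at h1 h2
    rw [inner_sub_left]
    have h3 := (abs_le.1 h1).1
    have h4 := (abs_le.1 h2).2
    have h5 : A * (t₀ * (1 / 2) ^ (n + 1)) * q ^ (n + 1) ≤
        A * (t₀ * (1 / 2) ^ (n + 1)) * q ^ n := by
      apply mul_le_mul_of_nonneg_left _ (by positivity)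
      rw [pow_succ]
      nlinarith [pow_pos hq0 n]
    have h6 : A * (t₀ * (1 / 2) ^ n) * q ^ n = 2 * (A * (t₀ * (1 / 2) ^ (n + 1)) * q ^ n) := by
      rw [pow_succ]; ring
    linarith
  obtain ⟨P, hP⟩ := cauchySeq_tendsto_of_complete (cauchySeq_of_le_geometric q (3 * A) hq1 hstep)
  have hdist : ∀ n, ‖p n - P‖ ≤ 3 * A * q ^ n / (1 - q) := by
    intro n
    rw [← dist_eq_norm]
    exact dist_le_of_le_geometric_of_tendsto q (3 * A) hq1 hstep hP n
  refine ⟨P, fun y hy => ?_⟩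
  rcases (norm_nonneg (y - c)).eq_or_lt with h0 | h0
  · have : y = c := sub_eq_zero.1 (norm_eq_zero.1 h0.symm)
    rw [this]
    simp
  · set s := ‖y - c‖ with hs
    obtain ⟨n, hn1, hn2⟩ := exists_nat_pow_near_of_lt_one (x := s / t₀) (y := (1 / 2 : ℝ))
      (by positivity) (by rw [div_le_one ht₀]; exact hy) (by norm_num) (by norm_num)
    have h1 : s ≤ t₀ * (1 / 2) ^ n := by
      rw [div_le_iff₀ ht₀] at hn2; linarith
    have h2 : t₀ * (1 / 2) ^ n ≤ 2 * s := by
      rw [lt_div_iff₀ ht₀, pow_succ] at hn1; linarith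
    have h3 : q ^ n ≤ 2 * (s / t₀) ^ β := by
      have h4 : q ^ (n + 1) ≤ (s / t₀) ^ β := by
        rw [← hpow]
        exact Real.rpow_le_rpow (by positivity) hn1.le hβ.le
      rw [pow_succ] at h4
      nlinarith [pow_pos hq0 n]
    have h4 := hp n y h1
    have h5 : |⟪p n - P, y - c⟫| ≤ 3 * A * q ^ n / (1 - q) * s :=
      (abs_real_inner_le_norm _ _).trans (mul_le_mul_of_nonneg_right (hdist n) h0.le)
    have h6 : u y - u c - ⟪P, y - c⟫ = (u y - u c - ⟪p n, y - c⟫) + ⟪p n - P, y - c⟫ := by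
      rw [inner_sub_left]; ring
    rw [h6]
    refine (abs_add_le _ _).trans ((add_le_add h4 h5).trans ?_)
    have h7 : A * (t₀ * (1 / 2) ^ n) * q ^ n ≤ A * (2 * s) * q ^ n := by gcongr
    have h8 : A * (2 * s) * q ^ n + 3 * A * q ^ n / (1 - q) * s =
        (2 + 3 / (1 - q)) * A * s * q ^ n := by ring
    have h9 : (2 + 3 / (1 - q)) * A * s * q ^ n ≤
        (2 + 3 / (1 - q)) * A * s * (2 * (s / t₀) ^ β) :=
      mul_le_mul_of_nonneg_left h3 (by positivity)
    linarith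

end

variable {E : Type} [NormedAddCommGroup E] [InnerProductSpace ℝ E] [CompleteSpace E]
  [FiniteDimensional ℝ E]

theorem expand_cone {α C : ℝ} (hα : 0 < α) (hC : 0 < C) (hE : H510.ConeEstimate E α C)
    {h : E → ℝ} {c : E} {r L t : ℝ} (hL : 0 ≤ L) (ht : 0 < t) (htr : t < r / 2)
    (hc : ConeComp h (ball c r))
    (hh : ∀ x ∈ closedBall c r, ∀ y ∈ closedBall c r, h x - h y ≤ L * ‖x - y‖) :
    ∀ y, ‖y - c‖ ≤ t → |h y - h c - ⟪gradient h c, y - c⟫| ≤ 2 * C * L * (t / r) ^ α * t := by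
  have hr : 0 < r := by linarith
  obtain ⟨a1, -, a3⟩ := hE h c r (2 * L * r) hr hc (by
    intro x hx y hy
    have h1 := hh x (ball_subset_closedBall hx) y (ball_subset_closedBall hy)
    rw [mem_ball, dist_eq_norm] at hx hy
    have h2 := norm_sub_le_norm_sub_add_norm_sub x c y
    rw [norm_sub_rev c y] at h2
    have h3 : L * ‖x - y‖ ≤ L * (2 * r) := mul_le_mul_of_nonneg_left (by linarith) hL
    linarith)
  intro y hy
  have hsub : closedBall c t ⊆ ball c (r / 2) := closedBall_subset_ball htr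
  have hd : ∀ x ∈ closedBall c t, DifferentiableAt ℝ h x := fun x hx =>
    (a1.contDiffAt (isOpen_ball.mem_nhds (hsub hx))).differentiableAt (by simp)
  have hb : ∀ x ∈ closedBall c t, ‖fderiv ℝ h x - fderiv ℝ h c‖ ≤ 2 * C * L * (t / r) ^ α := by
    intro x hx
    have h1 : ‖fderiv ℝ h x - fderiv ℝ h c‖ = ‖gradient h x - gradient h c‖ := by
      unfold gradient
      rw [← map_sub, LinearIsometryEquiv.norm_map]
    rw [h1]
    refine (a3 x (hsub hx) c (mem_ball_self (by linarith))).trans ?_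
    rw [mem_closedBall, dist_eq_norm] at hx
    have h2 : C * (2 * L * r / r) = 2 * C * L := by field_simp
    rw [h2]
    apply mul_le_mul_of_nonneg_left _ (by positivity)
    exact Real.rpow_le_rpow (by positivity) (by gcongr) hα.le
  have h1 := (convex_closedBall c t).norm_image_sub_le_of_norm_fderiv_le' hd hb
    (mem_closedBall_self ht.le) (show y ∈ closedBall c t by rwa [mem_closedBall, dist_eq_norm])
  have h2 : fderiv ℝ h c (y - c) = ⟪gradient h c, y - c⟫ := by
    rw [gradient, InnerProductSpace.toDual_symm_apply]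
  rw [h2, Real.norm_eq_abs] at h1
  exact h1.trans (mul_le_mul_of_nonneg_left hy (by positivity))

/-- In the ball of radius `r / 2` about `c` the function `u` is within `η` of an `L`-Lipschitz
function with comparison with cones in the ball of radius `r`. -/
def Near (u : E → ℝ) (c : E) (r L η : ℝ) : Prop :=
  ∃ h : E → ℝ, ConeComp h (ball c r) ∧
    (∀ x ∈ closedBall c r, ∀ y ∈ closedBall c r, h x - h y ≤ L * ‖x - y‖) ∧
    ∀ x, ‖x - c‖ ≤ r / 2 → |u x - h x| ≤ η

theorem expands_of_near {α C γ : ℝ} (hα : 0 < α) (hα1 : α < 1) (hC : 0 < C)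
    (hE : H510.ConeEstimate E α C) (hγ : 0 < γ) :
    ∃ D : ℝ, 1 ≤ D ∧ ∀ (u : E → ℝ) (c : E) (R L B : ℝ), 0 < R → 0 ≤ L → 0 ≤ B →
      (∀ r, 0 < r → r ≤ R → Near u c r L (B * L * r * (r / R) ^ γ)) →
      ∃ p : E, ∀ y, ‖y - c‖ ≤ R / 4 →
        |u y - u c - ⟪p, y - c⟫| ≤
          D * (1 + B) * L * ‖y - c‖ * (‖y - c‖ / (R / 4)) ^ (α * (γ / (2 + γ))) := by
  have hθ0 : 0 < γ / (2 + γ) := by positivity
  have hθ1 : γ / (2 + γ) ≤ 1 := by rw [div_le_one (by linarith)]; linarith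
  obtain ⟨D, hD, hcamp⟩ := campanato (E := E) (β := α * (γ / (2 + γ))) (by positivity)
    (by nlinarith)
  refine ⟨D * (2 * C + 8), by nlinarith, ?_⟩
  intro u c R L B hR hL hB hnear
  obtain ⟨p, hp⟩ := hcamp u c (R / 4) ((2 * C + 8 * B) * L) (by positivity) (by positivity) (by
    intro t ht htR
    set x : ℝ := t / (R / 4) with hx
    have hx0 : 0 < x := by positivity
    have hx1 : x ≤ 1 := by rw [hx, div_le_one (by positivity)]; exact htR
    set s : ℝ := x ^ (2 / (2 + γ)) with hs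
    set τ : ℝ := x ^ (γ / (2 + γ)) with hτ
    have hs0 : 0 < s := by positivity
    have hτ0 : 0 < τ := by positivity
    have hs1 : s ≤ 1 := Real.rpow_le_one hx0.le hx1 (by positivity)
    have hτ1 : τ ≤ 1 := Real.rpow_le_one hx0.le hx1 hθ0.le
    have hsτ : s * τ = x := by
      rw [hs, hτ, ← Real.rpow_add hx0]
      have : 2 / (2 + γ) + γ / (2 + γ) = 1 := by field_simp
      rw [this, Real.rpow_one]
    have hsγ : s ^ γ = τ ^ 2 := by
      rw [hs, hτ, ← Real.rpow_mul hx0.le, ← Real.rpow_natCast, ← Real.rpow_mul hx0.le]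
      congr 1
      push_cast
      ring
    have hτα : τ ^ α = x ^ (α * (γ / (2 + γ))) := by
      rw [hτ, ← Real.rpow_mul hx0.le, mul_comm]
    have hτα1 : τ ≤ τ ^ α := by
      calc τ = τ ^ (1 : ℝ) := by rw [Real.rpow_one]
        _ ≤ τ ^ α := Real.rpow_le_rpow_of_exponent_ge hτ0 hτ1 hα1.le
    have ht' : t = R * s * τ / 4 := by
      have : t = x * (R / 4) := by rw [hx]; field_simp
      rw [this, ← hsτ]; ring
    have hRs : 0 < R * s := by positivity
    obtain ⟨h, h1, h2, h3⟩ := hnear (R * s) hRs (by nlinarith)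
    have htr : t < R * s / 2 := by rw [ht']; nlinarith
    refine ⟨gradient h c, fun y hy => ?_⟩
    have h4 := expand_cone hα hC hE hL ht htr h1 h2 y hy
    have h5 := h3 y (hy.trans htr.le)
    have h6 := h3 c (by rw [sub_self, norm_zero]; positivity)
    have h7 : R * s / R = s := by field_simp
    rw [h7, hsγ] at h5 h6
    have h8 : (t / (R * s)) ^ α ≤ τ ^ α := by
      apply Real.rpow_le_rpow (by positivity) _ hα.le
      rw [div_le_iff₀ hRs, ht']
      nlinarith
    have h9 : u y - u c - ⟪gradient h c, y - c⟫ =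
        (h y - h c - ⟪gradient h c, y - c⟫) + ((u y - h y) - (u c - h c)) := by ring
    rw [h9, ← hτα]
    refine (abs_add_le _ _).trans ((add_le_add h4 ((abs_sub _ _).trans (add_le_add h5 h6))).trans ?_)
    have h10 : 2 * C * L * (t / (R * s)) ^ α * t ≤ 2 * C * L * τ ^ α * t := by gcongr
    have h11 : B * L * (R * s) * τ ^ 2 = 4 * B * L * t * τ := by rw [ht']; ring
    have h12 : 4 * B * L * t * τ ≤ 4 * B * L * t * τ ^ α :=
      mul_le_mul_of_nonneg_left hτα1 (by positivity)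
    rw [h11]
    linarith)
  refine ⟨p, fun y hy => (hp y hy).trans ?_⟩
  have h1 : D * ((2 * C + 8 * B) * L) ≤ D * (2 * C + 8) * (1 + B) * L := by
    have h2 : 2 * C + 8 * B ≤ (2 * C + 8) * (1 + B) := by nlinarith
    calc D * ((2 * C + 8 * B) * L) ≤ D * ((2 * C + 8) * (1 + B) * L) := by gcongr
      _ = _ := by ring
  gcongr

end Vale.Agent.N080
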