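import Vale.Agent.N080.Fd

/-!
A function which is almost convex along growing balls is close to the function with comparison
with cones that has the same boundary values.
-/

set_option linter.unusedSectionVars false

namespace Vale.Agent.N080

open Vale.Agent.P080 Metric Set Filter
open scoped RealInnerProductSpace Topology

variable {E : Type*} [NormedAddCommGroup E] [InnerProductSpace ℝ E] [FiniteDimensional ℝ E]

/-- Approximate convexity of the maximum of `u` over the balls of radii `0`, `ε`, `2 ε`. -/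
def Defect (u : E → ℝ) (c : E) (r ε δ' κ : ℝ) : Prop :=
  ∀ x, ‖x - c‖ < r - 2 * ε → ∀ m : ℝ, (∀ y ∈ closedBall x (2 * ε), u y ≤ m) →
    ∀ y ∈ closedBall x ε, u y - u x ≤ max δ' ((m - u x + κ) / 2)

theorem mid_point {x y : E} {ε : ℝ} (h : ‖y - x‖ ≤ 2 * ε) :
    ∃ w : E, ‖w - x‖ ≤ ε ∧ ‖y - w‖ ≤ ε := by
  refine ⟨x + (1 / 2 : ℝ) • (y - x), ?_, ?_⟩
  · rw [add_sub_cancel_left, norm_smul, Real.norm_of_nonneg (by norm_num)]
    linarith
  · have : y - (x + (1 / 2 : ℝ) • (y - x)) = (1 / 2 : ℝ) • (y - x) := by module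
    rw [this, norm_smul, Real.norm_of_nonneg (by norm_num)]
    linarith

theorem exists_sphere_near {c x e : E} (he : ‖e‖ = 1) {r : ℝ} (hx : ‖x - c‖ ≤ r) :
    ∃ y ∈ sphere c r, ‖x - y‖ = r - ‖x - c‖ := by
  by_cases h : x = c
  · have hr : 0 ≤ r := (norm_nonneg _).trans hx
    refine ⟨c + r • e, ?_, ?_⟩
    · rw [mem_sphere, dist_eq_norm, add_sub_cancel_left, norm_smul, he, mul_one,
        Real.norm_of_nonneg hr]
    · rw [h, sub_add_cancel_left, norm_neg, norm_smul, he, mul_one, Real.norm_of_nonneg hr,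
        sub_self, norm_zero, sub_zero]
  · have h0 : 0 < ‖x - c‖ := norm_pos_iff.2 (sub_ne_zero.2 h)
    have hr : 0 ≤ r := (norm_nonneg _).trans hx
    refine ⟨c + (r / ‖x - c‖) • (x - c), ?_, ?_⟩
    · rw [mem_sphere, dist_eq_norm, add_sub_cancel_left, norm_smul,
        Real.norm_of_nonneg (by positivity)]
      field_simp
    · have h1 : x - (c + (r / ‖x - c‖) • (x - c)) = -((r / ‖x - c‖ - 1) • (x - c)) := by module
      have h2 : 0 ≤ r / ‖x - c‖ - 1 := by
        rw [sub_nonneg, le_div_iff₀ h0]; linarith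
      rw [h1, norm_neg, norm_smul, Real.norm_of_nonneg h2]
      field_simp

theorem close_of_defect {u h : E → ℝ} {c e : E} (he : ‖e‖ = 1) {r ε L δ δ' κ l : ℝ}
    (hε : 0 < ε) (hL : 0 ≤ L) (hδ : 0 < δ) (hδ' : δ' < δ) (hl : 0 ≤ l)
    (hκ : κ < l * δ ^ 2)
    (hu : ∀ x ∈ closedBall c r, ∀ y ∈ closedBall c r, u x - u y ≤ L * ‖x - y‖)
    (hh : ∀ x ∈ closedBall c r, ∀ y ∈ closedBall c r, h x - h y ≤ L * ‖x - y‖)
    (hc : ConeComp h (ball c r)) (hb : ∀ y ∈ sphere c r, h y = u y)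
    (hd : Defect u c r ε δ' κ) {x₀ : E} (hx₀ : ‖x₀ - c‖ ≤ r - ε) :
    u x₀ - h x₀ ≤ 6 * L * ε + 2 * δ * (2 * r / ε) + l * (2 * L * r + 2 * δ * (2 * r / ε)) ^ 2 := by
  have hr : 0 < r := by linarith [norm_nonneg (x₀ - c)]
  have hucont := continuousOn_of_lip hL hu
  have hhcont := continuousOn_of_lip hL hh
  have hsub : ∀ {x : E} {ρ : ℝ}, ‖x - c‖ ≤ r - ρ → closedBall x ρ ⊆ closedBall c r := by
    intro x ρ hx y hy
    rw [mem_closedBall, dist_eq_norm] at hy ⊢
    have := norm_sub_le_norm_sub_add_norm_sub y x c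
    linarith
  let X := {x : E // ‖x - c‖ ≤ r - ε}
  have hmx : ∀ x : X, ∃ y ∈ closedBall x.1 ε, IsMaxOn u (closedBall x.1 ε) y := fun x =>
    (isCompact_closedBall x.1 ε).exists_isMaxOn ⟨x.1, mem_closedBall_self hε.le⟩
      (hucont.mono (hsub x.2))
  have hmn : ∀ x : X, ∃ y ∈ closedBall x.1 ε, IsMinOn h (closedBall x.1 ε) y := fun x =>
    (isCompact_closedBall x.1 ε).exists_isMinOn ⟨x.1, mem_closedBall_self hε.le⟩
      (hhcont.mono (hsub x.2))
  choose mx hmx1 hmx2 using hmx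
  choose mn hmn1 hmn2 using hmn
  set w : X → ℝ := fun x => u (mx x) with hw
  set v : X → ℝ := fun x => h (mn x) with hv
  have hw1 : ∀ (x : X) (y : E), ‖y - x.1‖ ≤ ε → u y ≤ w x := fun x y hy =>
    hmx2 x (by rwa [mem_closedBall, dist_eq_norm])
  have hv1 : ∀ (x : X) (y : E), ‖y - x.1‖ ≤ ε → v x ≤ h y := fun x y hy =>
    hmn2 x (by rwa [mem_closedBall, dist_eq_norm])
  have hmem : ∀ x : X, x.1 ∈ closedBall c r := fun x => hsub x.2 (mem_closedBall_self hε.le)
  have hw2 : ∀ x : X, w x ≤ u x.1 + L * ε := by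
    intro x
    have h1 := hu (mx x) (hsub x.2 (hmx1 x)) x.1 (hmem x)
    have h2 := hmx1 x
    rw [mem_closedBall, dist_eq_norm] at h2
    have h3 := mul_le_mul_of_nonneg_left h2 hL
    simp only [hw]
    linarith
  have hv2 : ∀ x : X, h x.1 - L * ε ≤ v x := by
    intro x
    have h1 := hh x.1 (hmem x) (mn x) (hsub x.2 (hmn1 x))
    have h2 := hmn1 x
    rw [mem_closedBall, dist_eq_norm, norm_sub_rev] at h2
    have h3 := mul_le_mul_of_nonneg_left h2 hL
    simp only [hv]
    linarith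
  have hnear : ∀ (x : X), ‖x.1 - c‖ < r - 2 * ε → ∀ y : E, ‖y - x.1‖ ≤ ε → ‖y - c‖ ≤ r - ε := by
    intro x hx y hy
    have := norm_sub_le_norm_sub_add_norm_sub y x.1 c
    linarith
  have hrad : ∀ y ∈ closedBall c r, ‖y - c‖ ≤ r := fun y hy => by
    rwa [mem_closedBall, dist_eq_norm] at hy
  have hcc : c ∈ closedBall c r := mem_closedBall_self hr.le
  have key := fd_compare (X := X) (adj := fun x y => ‖y.1 - x.1‖ ≤ ε)
    (I := {x | ‖x.1 - c‖ < r - 2 * ε}) (v := v) (w := w)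
    (φ := fun x => (r - ⟪e, x.1 - c⟫) / ε) (δ := δ) (δ' := δ') (κ := κ) (l := l)
    (N := 2 * r / ε) (m := h c - L * r) (M := 2 * L * r) (W := u c + L * r) (b := 6 * L * ε)
    (fun x y hxy => by rwa [norm_sub_rev]) hδ hδ' hl hκ ?_ ?_ ?_ ?_ ?_ ?_ ?_ ?_ ?_ ⟨x₀, hx₀⟩
  · have h1 := hw1 ⟨x₀, hx₀⟩ x₀ (by simp [hε.le])
    have h2 := hv1 ⟨x₀, hx₀⟩ x₀ (by simp [hε.le])
    linarith
  · -- the supersolution
    intro x hx
    have hx' : ‖x.1 - c‖ < r - 2 * ε := hx
    obtain ⟨q, hq1, hq2⟩ := (isCompact_closedBall x.1 (2 * ε)).exists_isMinOn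
      ⟨x.1, mem_closedBall_self (by linarith)⟩ (hhcont.mono (hsub hx'.le))
    have hq3 : ∀ y : E, ‖y - x.1‖ ≤ 2 * ε → h q ≤ h y := fun y hy =>
      hq2 (by rwa [mem_closedBall, dist_eq_norm])
    rw [mem_closedBall, dist_eq_norm] at hq1
    obtain ⟨y', hy'1, hy'2⟩ := mid_point hq1
    have h1 : v ⟨y', hnear x hx' y' hy'1⟩ ≤ h q := hv1 _ q hy'2
    have h2 : h q ≤ h x.1 := hq3 x.1 (by simp [hε.le])
    have h3 : (h x.1 + h q) / 2 ≤ v x := by
      have hcl : closure (ball x.1 (2 * ε)) ⊆ ball c r := by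
        refine closure_ball_subset_closedBall.trans fun y hy => ?_
        rw [mem_closedBall, dist_eq_norm] at hy
        rw [mem_ball, dist_eq_norm]
        have := norm_sub_le_norm_sub_add_norm_sub y x.1 c
        linarith
      have h4 := hmn1 x
      rw [mem_closedBall, dist_eq_norm] at h4
      have hb0 : 0 ≤ (h x.1 - h q) / (2 * ε) := div_nonneg (by linarith) (by linarith)
      have h5 := hc.below (ball x.1 (2 * ε)) isOpen_ball isBounded_ball hcl x.1 (h x.1)
        ((h x.1 - h q) / (2 * ε)) hb0 ?_ (fun _ => le_rfl) (mn x)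
        (by rw [mem_ball, dist_eq_norm]; linarith)
      · have h6 := mul_le_mul_of_nonneg_left h4 hb0
        have h7 : (h x.1 - h q) / (2 * ε) * ε = (h x.1 - h q) / 2 := by field_simp
        simp only [hv]
        linarith
      · intro y hy
        rw [frontier_ball _ (by linarith), mem_sphere, dist_eq_norm] at hy
        have h6 := hq3 y hy.le
        have h7 : (h x.1 - h q) / (2 * ε) * (2 * ε) = h x.1 - h q := by field_simp
        rw [hy, h7]
        linarith
    refine ⟨⟨y', hnear x hx' y' hy'1⟩, hy'1, fun y hy => ⟨h1.trans ?_, ?_⟩⟩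
    · apply hq3
      have h4 := hmn1 y
      rw [mem_closedBall, dist_eq_norm] at h4
      have := norm_sub_le_norm_sub_add_norm_sub (mn y) y.1 x.1
      linarith
    · have h4 := hv1 y x.1 (by rwa [norm_sub_rev])
      linarith
  · -- the approximate subsolution
    intro x hx P hP y hy
    have hx' : ‖x.1 - c‖ < r - 2 * ε := hx
    have h1 := hd x.1 hx' (w x + P) ?_ (mx x) (hmx1 x)
    · have h2 := hw1 y x.1 (by rwa [norm_sub_rev])
      have h3 : w x = u (mx x) := rfl
      rcases le_max_iff.1 h1 with h4 | h4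
      · exact le_max_of_le_left (by linarith)
      · exact le_max_of_le_right (by linarith)
    · intro z hz
      rw [mem_closedBall, dist_eq_norm] at hz
      obtain ⟨y', hy'1, hy'2⟩ := mid_point hz
      have h2 := hP ⟨y', hnear x hx' y' hy'1⟩ hy'1
      have h3 := hw1 ⟨y', hnear x hx' y' hy'1⟩ z hy'2
      linarith
  · intro x
    have h1 := real_inner_le_norm e (x.1 - c)
    rw [he, one_mul] at h1
    exact div_nonneg (by linarith [x.2]) hε.le
  · intro x
    have h1 := abs_real_inner_le_norm e (x.1 - c)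
    rw [he, one_mul] at h1
    have h2 := (abs_le.1 h1).1
    exact div_le_div_of_nonneg_right (by linarith [x.2]) hε.le
  · intro x hx
    have hx' : ‖x.1 - c‖ < r - 2 * ε := hx
    have h1 : ‖x.1 + ε • e - x.1‖ ≤ ε := by
      rw [add_sub_cancel_left, norm_smul, he, mul_one, Real.norm_of_nonneg hε.le]
    refine ⟨⟨x.1 + ε • e, hnear x hx' _ h1⟩, h1, le_of_eq ?_⟩
    have h2 : x.1 + ε • e - c = (x.1 - c) + ε • e := by abel
    simp only
    rw [h2, inner_add_right, real_inner_smul_right, real_inner_self_eq_norm_sq, he]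
    field_simp
    ring
  · intro x
    have h1 := hh c hcc (mn x) (hsub x.2 (hmn1 x))
    have h2 := hrad _ (hsub x.2 (hmn1 x))
    rw [norm_sub_rev] at h2
    have h3 := mul_le_mul_of_nonneg_left h2 hL
    simp only [hv]
    linarith
  · intro x
    have h1 := hh (mn x) (hsub x.2 (hmn1 x)) c hcc
    have h2 := hrad _ (hsub x.2 (hmn1 x))
    have h3 := mul_le_mul_of_nonneg_left h2 hL
    simp only [hv]
    linarith
  · intro x
    have h1 := hu (mx x) (hsub x.2 (hmx1 x)) c hcc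
    have h2 := hrad _ (hsub x.2 (hmx1 x))
    have h3 := mul_le_mul_of_nonneg_left h2 hL
    simp only [hw]
    linarith
  · intro x hx
    have hx' : r - 2 * ε ≤ ‖x.1 - c‖ := not_lt.1 hx
    obtain ⟨y, hy, hxy⟩ := exists_sphere_near he (hrad _ (hmem x))
    have h1 := hu x.1 (hmem x) y (sphere_subset_closedBall hy)
    have h2 := hh y (sphere_subset_closedBall hy) x.1 (hmem x)
    rw [norm_sub_rev] at h2
    have h3 := hb y hy
    have h4 : L * ‖x.1 - y‖ ≤ L * (2 * ε) := mul_le_mul_of_nonneg_left (by linarith) hL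
    have h5 := hw2 x
    have h6 := hv2 x
    linarith

end Vale.Agent.N080
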