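import Vale.Agent.N080.Rad

/-!
Lipschitz functions with bounded `D²u (A ∇u, A ∇u)`, `A` close to the identity: approximation by
functions with comparison with cones at all scales, and the pointwise expansion.
-/

set_option linter.unusedSectionVars false

namespace Vale.Agent.N080

open Vale.Agent.P080 Metric Set Filter
open scoped RealInnerProductSpace Topology

section

variable {E : Type*} [NormedAddCommGroup E] [InnerProductSpace ℝ E] [CompleteSpace E]
  [FiniteDimensional ℝ E]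

theorem quad_d1 (a₀ a η s : ℝ) :
    HasDerivAt (fun s : ℝ => a₀ + a * s - η * s ^ 2) (a - 2 * η * s) s := by
  have h1 := (((hasDerivAt_id s).const_mul a).const_add a₀).fun_sub
    (((hasDerivAt_id s).fun_pow 2).const_mul η)
  refine HasDerivAt.congr_deriv h1 ?_
  simp only [id]
  push_cast
  ring

theorem quad_d2 (a η s : ℝ) : HasDerivAt (fun s : ℝ => a - 2 * η * s) (-(2 * η)) s := by
  have h1 := ((hasDerivAt_id s).const_mul (2 * η)).const_sub a
  refine HasDerivAt.congr_deriv h1 ?_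
  ring

theorem Sub.defect {A : E → E →L[ℝ] E} {K : ℝ} {u : E → ℝ} {c : E} {r ε L ω η δ₀ : ℝ}
    (hu : Sub A (fun _ => K) u (closedBall c r)) (hA : ∀ y ∈ closedBall c r, ‖A y - 1‖ ≤ ω)
    (hω0 : 0 < ω) (hω : ω ≤ 1 / 2) (hε : 0 < ε) (hη : 0 ≤ η) (hδ : 0 < δ₀) (hδL : δ₀ ≤ L)
    (hηL : 4 * η * ε ≤ L) (hK0 : 0 ≤ K) (hK : K < δ₀ ^ 2 * (η / 2 - 2 * L * ω / ε))
    (hlip : ∀ x ∈ closedBall c r, ∀ y ∈ closedBall c r, u x - u y ≤ L * ‖x - y‖) :
    Defect u c r ε (δ₀ * ε + (L * ω * ε + 4 * η * ε ^ 2)) (L * ω * ε + 4 * η * ε ^ 2) := by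
  intro x hx m hm y hy
  have hL : 0 < L := hδ.trans_le hδL
  have hsub : ∀ w, ‖w - x‖ ≤ 2 * ε → w ∈ closedBall c r := by
    intro w hw
    rw [mem_closedBall, dist_eq_norm]
    have := norm_sub_le_norm_sub_add_norm_sub w x c
    linarith
  have hxc : x ∈ closedBall c r := hsub x (by simp [hε.le])
  rw [mem_closedBall, dist_eq_norm] at hy
  have hLω : 0 ≤ L * ω * ε := by positivity
  have hηε : 0 ≤ η * ε ^ 2 := by positivity
  have hlx : ∀ w, ‖w - x‖ ≤ 2 * ε → ∀ t, ‖w - x‖ ≤ t → u w - u x ≤ L * t := fun w hw t ht =>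
    (hlip w (hsub w hw) x hxc).trans (mul_le_mul_of_nonneg_left ht hL.le)
  by_cases hm2 : 2 * L * ε ≤ m - u x
  · have := hlx y (by linarith) ε hy
    exact le_max_of_le_right (by linarith)
  push Not at hm2
  set a : ℝ := max ((m - u x - L * ω * ε) / (2 * ε) + 2 * η * ε) (δ₀ + 4 * η * ε) with ha
  have ha1 : (m - u x - L * ω * ε) / (2 * ε) + 2 * η * ε ≤ a := le_max_left _ _
  have ha2 : δ₀ + 4 * η * ε ≤ a := le_max_right _ _
  have hηε' : 0 ≤ η * ε := by positivity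
  have ha3 : a ≤ 2 * L := by
    refine max_le ?_ (by linarith)
    have : (m - u x - L * ω * ε) / (2 * ε) ≤ L := by
      rw [div_le_iff₀ (by linarith)]; linarith
    linarith
  have hωε : 0 < ω * ε := by positivity
  set V : Set E := ball x (2 * ε) \ closedBall x (ω * ε) with hV
  have hVo : IsOpen V := isOpen_ball.sdiff isClosed_closedBall
  have hVc : ∀ w ∈ closure V, ‖w - x‖ ≤ 2 * ε := by
    intro w hw
    have := closure_minimal (sdiff_subset.trans ball_subset_closedBall) isClosed_closedBall hw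
    rwa [mem_closedBall, dist_eq_norm] at this
  have hmemV : ∀ w, w ∈ V ↔ ‖w - x‖ < 2 * ε ∧ ω * ε < ‖w - x‖ := by
    intro w
    rw [hV, Set.mem_sdiff, mem_ball, mem_closedBall, dist_eq_norm, not_le]
  have hX : 0 < η / 2 - 2 * L * ω / ε := by
    by_contra hneg
    have := mul_nonpos_of_nonneg_of_nonpos (sq_nonneg δ₀) (not_lt.1 hneg)
    linarith
  have key := hu.radial hVo (isBounded_ball.subset sdiff_subset) (fun w hw => hsub w (hVc w hw))
    (z := x) (fun h => h.2 (mem_closedBall_self hωε.le))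
    (g := fun s => (u x + L * ω * ε) + a * s - η * s ^ 2) (g₁ := fun s => a - 2 * η * s)
    (g₂ := fun _ => -(2 * η)) (by fun_prop) (fun s _ => by fun_prop)
    (fun s _ => quad_d1 _ _ _ s) (fun s _ => quad_d2 _ _ s) ?_ ?_
  · have h1 : u y - u x ≤ L * ω * ε + a * ε := by
      have ha0 : 0 ≤ a := by linarith
      by_cases hyV : y ∈ V
      · have h2 := key y hyV
        have h3 := mul_le_mul_of_nonneg_left hy ha0
        have h4 := mul_nonneg hη (sq_nonneg ‖y - x‖)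
        linarith
      · have h2 : ‖y - x‖ ≤ ω * ε := by
          by_contra h
          exact hyV ((hmemV y).2 ⟨by linarith, not_le.1 h⟩)
        have h3 := hlx y (by linarith) _ h2
        have h4 := mul_nonneg ha0 hε.le
        linarith
    rcases le_total ((m - u x - L * ω * ε) / (2 * ε) + 2 * η * ε) (δ₀ + 4 * η * ε) with h | h
    · rw [ha, max_eq_right h] at h1
      exact le_max_of_le_left (by linarith)
    · rw [ha, max_eq_left h] at h1
      have h2 : ((m - u x - L * ω * ε) / (2 * ε) + 2 * η * ε) * ε =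
          (m - u x - L * ω * ε) / 2 + 2 * η * ε ^ 2 := by field_simp
      exact le_max_of_le_right (by linarith)
  · intro w hw
    obtain ⟨h1, h2⟩ := (hmemV w).1 hw
    have h0 : 0 < ‖w - x‖ := hωε.trans h2
    have h3 : 2 * η * ‖w - x‖ ≤ 4 * η * ε := by
      have := mul_le_mul_of_nonneg_left h1.le (by linarith : 0 ≤ 2 * η)
      linarith
    have h4 : 0 ≤ 2 * η * ‖w - x‖ := by positivity
    have h5 : δ₀ ≤ a - 2 * η * ‖w - x‖ := by linarith
    refine ⟨ω, hA w (hsub w h1.le), hω, by linarith, by linarith, ?_⟩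
    set s := a - 2 * η * ‖w - x‖ with hs
    have h6 : s * ω ^ 2 / ‖w - x‖ ≤ 2 * L * ω / ε := by
      rw [div_le_div_iff₀ h0 hε]
      have h7 : s * ω * (ω * ε) ≤ 2 * L * ω * ‖w - x‖ :=
        mul_le_mul (mul_le_mul_of_nonneg_right (by linarith) hω0.le) h2.le hωε.le (by positivity)
      nlinarith
    have h7 : δ₀ ^ 2 ≤ s ^ 2 := pow_le_pow_left₀ hδ.le h5 2
    have h8 := mul_le_mul_of_nonneg_right h7 hX.le
    have h9 := mul_le_mul_of_nonneg_left h6 (sq_nonneg s)
    nlinarith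
  · intro w hw
    rw [hVo.frontier_eq] at hw
    have h1 := hVc w hw.1
    rcases h1.eq_or_lt with h2 | h2
    · have h3 := hm w (by rwa [mem_closedBall, dist_eq_norm])
      have h4 := mul_le_mul_of_nonneg_right ha1 (by linarith : 0 ≤ 2 * ε)
      have h5 : ((m - u x - L * ω * ε) / (2 * ε) + 2 * η * ε) * (2 * ε) =
          m - u x - L * ω * ε + 4 * η * ε ^ 2 := by field_simp; ring
      simp only [h2]
      nlinarith
    · have h3 : ‖w - x‖ ≤ ω * ε := by
        by_contra h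
        exact hw.2 ((hmemV w).2 ⟨h2, not_le.1 h⟩)
      have h4 := hlx w h1 _ h3
      have h5 : η * ‖w - x‖ ≤ a := by
        have := mul_le_mul_of_nonneg_left h1 hη
        linarith
      have h6 := mul_le_mul_of_nonneg_right h5 (norm_nonneg (w - x))
      nlinarith

theorem close_of_sub {A : E → E →L[ℝ] E} {K : ℝ} {u h : E → ℝ} {c e : E} (he : ‖e‖ = 1)
    {r L σ : ℝ} (hr : 0 < r) (hL : 0 < L) (hσ : 0 < σ) (hσ1 : σ ≤ 1) (hK0 : 0 ≤ K)
    (hK : K * r ≤ L ^ 3 * σ ^ 5) (hu : Sub A (fun _ => K) u (closedBall c r))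
    (hA : ∀ y ∈ closedBall c r, ‖A y - 1‖ ≤ σ ^ 5 / 64)
    (hlip : ∀ x ∈ closedBall c r, ∀ y ∈ closedBall c r, u x - u y ≤ L * ‖x - y‖)
    (hh : ∀ x ∈ closedBall c r, ∀ y ∈ closedBall c r, h x - h y ≤ L * ‖x - y‖)
    (hc : ConeComp h (ball c r)) (hb : ∀ y ∈ sphere c r, h y = u y) {x : E}
    (hx : ‖x - c‖ ≤ r / 2) : u x - h x ≤ 1609 * L * r * σ := by
  have p2 : σ ^ 2 ≤ σ := by nlinarith
  have p3 : σ ^ 3 ≤ 1 := pow_le_one₀ hσ.le hσ1
  have p4 : σ ^ 4 ≤ 1 := pow_le_one₀ hσ.le hσ1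
  have p5 : σ ^ 5 ≤ 1 := pow_le_one₀ hσ.le hσ1
  have hd := hu.defect (ε := r * σ / 64) (L := L) (η := 12 * L * σ ^ 3 / r) (δ₀ := L * σ) hA
    (by positivity) (by linarith) (by positivity) (by positivity) (by positivity)
    (by nlinarith) ?_ hK0 ?_ hlip
  · have hκ : L * (σ ^ 5 / 64) * (r * σ / 64) + 4 * (12 * L * σ ^ 3 / r) * (r * σ / 64) ^ 2 =
        (L * σ * (r * σ / 64)) * (σ ^ 3 * ((σ + 48) / 64)) := by field_simp; ring
    rw [hκ] at hd
    have hq : 0 < L * σ * (r * σ / 64) := by positivity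
    have hq2 : (σ + 48) / 64 < 1 := by linarith
    have key := close_of_defect he (δ := 2 * (L * σ * (r * σ / 64))) (l := 16 * σ / (L * r))
      (by positivity) hL.le (by positivity) ?_ (by positivity) ?_ hlip hh hc hb hd (x₀ := x)
      (by nlinarith)
    · have h1 : 2 * (2 * (L * σ * (r * σ / 64))) * (2 * r / (r * σ / 64)) = 8 * L * r * σ := by
        field_simp; ring
      rw [h1] at key
      have h2 : 16 * σ / (L * r) * (2 * L * r + 8 * L * r * σ) ^ 2 =
          L * r * σ * (16 * (2 + 8 * σ) ^ 2) := by field_simp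
      have h3 : 16 * (2 + 8 * σ) ^ 2 ≤ 1600 := by nlinarith
      have h4 : 0 < L * r * σ := by positivity
      have h5 := mul_le_mul_of_nonneg_left h3 h4.le
      rw [h2] at key
      linarith
    · have h1 : σ ^ 3 * ((σ + 48) / 64) < 1 := by
        have : σ ^ 3 * ((σ + 48) / 64) ≤ 1 * ((σ + 48) / 64) :=
          mul_le_mul_of_nonneg_right p3 (by positivity)
        linarith
      have := mul_lt_mul_of_pos_left h1 hq
      linarith
    · have h1 : 16 * σ / (L * r) * (2 * (L * σ * (r * σ / 64))) ^ 2 =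
          (L * σ * (r * σ / 64)) * (σ ^ 3 * 1) := by field_simp; ring
      rw [h1]
      exact mul_lt_mul_of_pos_left (mul_lt_mul_of_pos_left hq2 (by positivity)) hq
  · have h1 : 4 * (12 * L * σ ^ 3 / r) * (r * σ / 64) = L * (σ ^ 4 * (48 / 64)) := by
      field_simp; ring
    rw [h1]
    nlinarith
  · have h1 : (L * σ) ^ 2 * (12 * L * σ ^ 3 / r / 2 - 2 * L * (σ ^ 5 / 64) / (r * σ / 64)) =
        L ^ 3 * σ ^ 5 * (6 - 2 * σ) / r := by field_simp; ring
    rw [h1, lt_div_iff₀ hr]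
    have h2 : 0 < L ^ 3 * σ ^ 5 := by positivity
    nlinarith

end

variable {E : Type} [NormedAddCommGroup E] [InnerProductSpace ℝ E] [CompleteSpace E]
  [FiniteDimensional ℝ E]

theorem near_of_sub {A : E → E →L[ℝ] E} {K : ℝ} {u : E → ℝ} {c e : E} (he : ‖e‖ = 1)
    {R L γ : ℝ} (hγ : 0 < γ) (hγ1 : γ ≤ 1) (hR : 0 < R) (hL : 0 < L) (hK0 : 0 ≤ K)
    (hK : K * R ≤ L ^ 3) (hu : Sub A (fun _ => K) u (closedBall c R))
    (hu' : Sub A (fun _ => K) (fun x => -u x) (closedBall c R))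
    (hA : ∀ y ∈ closedBall c R, ‖A y - 1‖ ≤ (‖y - c‖ / R) ^ γ / 64)
    (hlip : ∀ x ∈ closedBall c R, ∀ y ∈ closedBall c R, u x - u y ≤ L * ‖x - y‖) :
    ∀ r, 0 < r → r ≤ R → Near u c r L (1609 * L * r * (r / R) ^ (γ / 5)) := by
  intro r hr hrR
  have hsub : closedBall c r ⊆ closedBall c R := closedBall_subset_closedBall hrR
  have hlip' : ∀ x ∈ closedBall c r, ∀ y ∈ closedBall c r, u x - u y ≤ L * ‖x - y‖ :=
    fun x hx y hy => hlip x (hsub hx) y (hsub hy)
  obtain ⟨y₀, hy₀, -⟩ := exists_sphere_near (c := c) (x := c) he (r := r) (by simp [hr.le])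
  obtain ⟨h, h1, h2, h3⟩ := exists_cone_ext (g := u) hr hL.le ⟨y₀, hy₀⟩
    fun x hx y hy => hlip' x (sphere_subset_closedBall hx) y (sphere_subset_closedBall hy)
  set s : ℝ := r / R with hs
  have hs0 : 0 < s := by positivity
  have hs1 : s ≤ 1 := by rw [hs, div_le_one hR]; exact hrR
  set σ : ℝ := s ^ (γ / 5) with hσ
  have hσ0 : 0 < σ := by positivity
  have hσ1 : σ ≤ 1 := Real.rpow_le_one hs0.le hs1 (by positivity)
  have hσ5 : σ ^ 5 = s ^ γ := by
    rw [hσ, ← Real.rpow_natCast, ← Real.rpow_mul hs0.le]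
    congr 1
    push_cast
    ring
  have hsσ : s ≤ σ ^ 5 := by
    rw [hσ5]
    calc s = s ^ (1 : ℝ) := by rw [Real.rpow_one]
      _ ≤ s ^ γ := Real.rpow_le_rpow_of_exponent_ge hs0 hs1 hγ1
  have hK' : K * r ≤ L ^ 3 * σ ^ 5 := by
    have h4 : K * r = K * R * s := by rw [hs]; field_simp
    rw [h4]
    exact mul_le_mul hK hsσ hs0.le (by positivity)
  have hA' : ∀ y ∈ closedBall c r, ‖A y - 1‖ ≤ σ ^ 5 / 64 := by
    intro y hy
    refine (hA y (hsub hy)).trans ?_
    rw [mem_closedBall, dist_eq_norm] at hy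
    rw [hσ5]
    apply div_le_div_of_nonneg_right _ (by norm_num)
    exact Real.rpow_le_rpow (by positivity) (div_le_div_of_nonneg_right hy hR.le) hγ.le
  have hneg : ∀ {f : E → ℝ},
      (∀ x ∈ closedBall c r, ∀ y ∈ closedBall c r, f x - f y ≤ L * ‖x - y‖) →
      ∀ x ∈ closedBall c r, ∀ y ∈ closedBall c r, -f x - -f y ≤ L * ‖x - y‖ := by
    intro f hf x hx y hy
    have := hf y hy x hx
    rw [norm_sub_rev] at this
    linarith
  refine ⟨h, h1, h2, fun x hx => ?_⟩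
  have k1 := close_of_sub he hr hL hσ0 hσ1 hK0 hK' (hu.mono hsub) hA' hlip' h2 h1 h3 hx
  have k2 := close_of_sub he hr hL hσ0 hσ1 hK0 hK' (hu'.mono hsub) hA' (hneg hlip') (hneg h2)
    h1.neg (fun y hy => by rw [h3 y hy]) hx
  rw [abs_le]
  constructor <;> linarith

/-- The exponent obtained from the exponent `α` of the homogeneous estimate and the exponent `γ`
of the coefficients. -/
noncomputable def expo (α γ : ℝ) : ℝ := α * (γ / 5 / (2 + γ / 5))

theorem expo_pos {α γ : ℝ} (hα : 0 < α) (hγ : 0 < γ) : 0 < expo α γ := by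
  unfold expo; positivity

theorem expo_lt {α γ : ℝ} (hα : 0 < α) (hα1 : α < 1) (hγ : 0 < γ) : expo α γ < 1 := by
  unfold expo
  have : γ / 5 / (2 + γ / 5) ≤ 1 := by rw [div_le_one (by linarith)]; linarith
  nlinarith

theorem core {α C γ : ℝ} (hα : 0 < α) (hα1 : α < 1) (hC : 0 < C)
    (hE : H510.ConeEstimate E α C) (hγ : 0 < γ) (hγ1 : γ ≤ 1) :
    ∃ D : ℝ, 1 ≤ D ∧ ∀ (A : E → E →L[ℝ] E) (K : ℝ) (u : E → ℝ) (c : E) (R L : ℝ), 0 < R → 0 < L →
      0 ≤ K → K * R ≤ L ^ 3 → Sub A (fun _ => K) u (closedBall c R) →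
      Sub A (fun _ => K) (fun x => -u x) (closedBall c R) →
      (∀ y ∈ closedBall c R, ‖A y - 1‖ ≤ (‖y - c‖ / R) ^ γ / 64) →
      (∀ x ∈ closedBall c R, ∀ y ∈ closedBall c R, u x - u y ≤ L * ‖x - y‖) →
      ∃ p : E, ∀ y, ‖y - c‖ ≤ R / 4 →
        |u y - u c - ⟪p, y - c⟫| ≤ D * L * ‖y - c‖ * (‖y - c‖ / (R / 4)) ^ expo α γ := by
  obtain ⟨D, hD, h⟩ := expands_of_near hα hα1 hC hE (γ := γ / 5) (by positivity)
  refine ⟨D * (1 + 1609), by linarith, ?_⟩
  intro A K u c R L hR hL hK0 hK hu hu' hA hlip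
  rcases subsingleton_or_nontrivial E with hs | hs
  · refine ⟨0, fun y _ => ?_⟩
    rw [Subsingleton.elim y c]
    simp
  · obtain ⟨e, he⟩ := exists_norm_eq E (zero_le_one' ℝ)
    exact h u c R L 1609 hR hL.le (by norm_num)
      (near_of_sub he hγ hγ1 hR hL hK0 hK hu hu' hA hlip)

end Vale.Agent.N080
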