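import Vale.Agent.P080.H510.Cone

/-!
The Dirichlet problem in a ball with Lipschitz data, for functions with comparison with cones
(Perron construction).
-/

set_option linter.unusedSectionVars false

namespace Vale.Agent.N080

open Vale.Agent.P080 Metric Set Filter
open scoped RealInnerProductSpace Topology

variable {E : Type*} [NormedAddCommGroup E] [InnerProductSpace ℝ E]

theorem seg_norm {x y z : E} (h : y ∈ segment ℝ z x) : ‖x - z‖ = ‖x - y‖ + ‖y - z‖ := by
  have := dist_add_dist_of_mem_segment h
  rw [dist_eq_norm, dist_eq_norm, dist_eq_norm, norm_sub_rev z y, norm_sub_rev y x,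
    norm_sub_rev z x] at this
  linarith

/-- A downward cone with vertex outside `W` stays below an upward cone in `W`. -/
theorem cone_cone {W : Set E} (hW : IsOpen W) {z z' : E} {a b a' b' : ℝ} (hb : 0 ≤ b)
    (hb' : 0 ≤ b') (hz' : z' ∉ W) (hz : z ∈ W → a' - b' * ‖z - z'‖ ≤ a)
    (hf : ∀ x ∈ frontier W, a' - b' * ‖x - z'‖ ≤ a + b * ‖x - z‖) :
    ∀ x ∈ W, a' - b' * ‖x - z'‖ ≤ a + b * ‖x - z‖ := by
  intro x hx
  rcases le_total b b' with hbb | hbb
  · obtain ⟨y, hy, hseg⟩ := H510.exists_frontier_segment hW hx hz'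
    have h1 := seg_norm hseg
    have h2 := hf y hy
    have h3 : ‖y - z‖ ≤ ‖x - z‖ + ‖x - y‖ := by
      have := norm_sub_le_norm_sub_add_norm_sub y x z
      rw [norm_sub_rev y x] at this
      linarith
    have h4 := mul_le_mul_of_nonneg_left h3 hb
    have h5 := mul_le_mul_of_nonneg_right hbb (norm_nonneg (x - y))
    rw [h1]
    nlinarith
  · by_cases hzW : z ∈ W
    · have h1 := hz hzW
      have h3 : ‖z - z'‖ ≤ ‖x - z'‖ + ‖x - z‖ := by
        have := norm_sub_le_norm_sub_add_norm_sub z x z'
        rw [norm_sub_rev z x] at this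
        linarith
      have h4 := mul_le_mul_of_nonneg_left h3 hb'
      have h5 := mul_le_mul_of_nonneg_right hbb (norm_nonneg (x - z))
      nlinarith
    · obtain ⟨y, hy, hseg⟩ := H510.exists_frontier_segment hW hx hzW
      have h1 := seg_norm hseg
      have h2 := hf y hy
      have h3 : ‖y - z'‖ ≤ ‖x - z'‖ + ‖x - y‖ := by
        have := norm_sub_le_norm_sub_add_norm_sub y x z'
        rw [norm_sub_rev y x] at this
        linarith
      have h4 := mul_le_mul_of_nonneg_left h3 hb'
      have h5 := mul_le_mul_of_nonneg_right hbb (norm_nonneg (x - y))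
      rw [h1]
      nlinarith

theorem continuousOn_of_lip {h : E → ℝ} {S : Set E} {L : ℝ} (hL : 0 ≤ L)
    (hlip : ∀ x ∈ S, ∀ y ∈ S, h x - h y ≤ L * ‖x - y‖) : ContinuousOn h S := by
  have : LipschitzOnWith L.toNNReal h S := by
    refine LipschitzOnWith.of_dist_le_mul fun x hx y hy => ?_
    rw [Real.dist_eq, dist_eq_norm, abs_le, Real.coe_toNNReal L hL]
    have h1 := hlip x hx y hy
    have h2 := hlip y hy x hx
    rw [norm_sub_rev] at h2
    exact ⟨by linarith, h1⟩
  exact this.continuousOn

/-- Comparison with upward cones in all open subsets of `B`. -/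
def Above (f : E → ℝ) (B : Set E) : Prop :=
  ∀ V : Set E, IsOpen V → V ⊆ B → ∀ (z : E) (a b : ℝ), 0 ≤ b →
    (∀ x ∈ frontier V, f x ≤ a + b * ‖x - z‖) → (z ∈ V → f z ≤ a) →
    ∀ x ∈ V, f x ≤ a + b * ‖x - z‖

theorem exists_cone_ext {g : E → ℝ} {c : E} {r L : ℝ} (hr : 0 < r) (hL : 0 ≤ L)
    (hS : (sphere c r).Nonempty)
    (hg : ∀ x ∈ sphere c r, ∀ y ∈ sphere c r, g x - g y ≤ L * ‖x - y‖) :
    ∃ h : E → ℝ, ConeComp h (ball c r) ∧
      (∀ x ∈ closedBall c r, ∀ y ∈ closedBall c r, h x - h y ≤ L * ‖x - y‖) ∧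
      ∀ y ∈ sphere c r, h y = g y := by
  classical
  set F : Set (E → ℝ) := {f | Above f (ball c r) ∧ ∀ y ∈ sphere c r, f y ≤ g y} with hF
  have hSB : ∀ y ∈ sphere c r, y ∉ ball c r := by
    intro y hy hy'
    rw [mem_sphere] at hy
    rw [mem_ball] at hy'
    linarith
  have hcl : ∀ x ∈ closedBall c r, x ∈ ball c r ∨ x ∈ sphere c r := by
    intro x hx
    rw [mem_closedBall] at hx
    rcases hx.lt_or_eq with h | h
    · exact Or.inl h
    · exact Or.inr h
  have hD : ∀ y ∈ sphere c r, (fun x => g y - L * ‖x - y‖) ∈ F := by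
    intro y hy
    refine ⟨?_, ?_⟩
    · intro V hV hVB z a b hb hf hz
      exact cone_cone hV hb hL (fun h => hSB y hy (hVB h)) hz hf
    · intro y' hy'
      have := hg y hy y' hy'
      rw [norm_sub_rev] at this
      simp only
      linarith
  have hup : ∀ f ∈ F, ∀ x ∈ closedBall c r, ∀ y ∈ sphere c r, f x ≤ g y + L * ‖x - y‖ := by
    intro f hf x hx y hy
    have h1 : ∀ x ∈ sphere c r, f x ≤ g y + L * ‖x - y‖ := by
      intro x hx
      have := hf.2 x hx
      have := hg x hx y hy
      linarith
    rcases hcl x hx with h | h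
    · refine hf.1 (ball c r) isOpen_ball Subset.rfl y (g y) L hL ?_ (fun h => (hSB y hy h).elim)
        x h
      rw [frontier_ball c hr.ne']
      exact h1
    · exact h1 x h
  obtain ⟨y₀, hy₀⟩ := hS
  set h : E → ℝ := fun x => sSup ((fun f : E → ℝ => f x) '' F) with hh
  have hle : ∀ f ∈ F, ∀ x ∈ closedBall c r, f x ≤ h x := by
    intro f hf x hx
    refine le_csSup ⟨g y₀ + L * ‖x - y₀‖, ?_⟩ (mem_image_of_mem (fun f : E → ℝ => f x) hf)
    rintro _ ⟨f', hf', rfl⟩
    exact hup f' hf' x hx y₀ hy₀
  have hge : ∀ x t, (∀ f ∈ F, f x ≤ t) → h x ≤ t := by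
    intro x t ht
    refine csSup_le ⟨_, mem_image_of_mem (fun f : E → ℝ => f x) (hD y₀ hy₀)⟩ ?_
    rintro _ ⟨f', hf', rfl⟩
    exact ht f' hf'
  have hfr : ∀ V : Set E, V ⊆ ball c r → closure V ⊆ closedBall c r := by
    intro V hV
    exact closure_minimal (hV.trans ball_subset_closedBall) isClosed_closedBall
  have hA : Above h (ball c r) := by
    intro V hV hVB z a b hb hf hz x hx
    refine hge x _ fun f hfF => hfF.1 V hV hVB z a b hb (fun y hy => ?_) (fun hzV => ?_) x hx
    · exact (hle f hfF y (hfr V hVB (frontier_subset_closure hy))).trans (hf y hy)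
    · exact (hle f hfF z (ball_subset_closedBall (hVB hzV))).trans (hz hzV)
  have hlow : ∀ x ∈ closedBall c r, ∀ y ∈ sphere c r, g y - L * ‖x - y‖ ≤ h x :=
    fun x hx y hy => hle _ (hD y hy) x hx
  have hupp : ∀ x ∈ closedBall c r, ∀ y ∈ sphere c r, h x ≤ g y + L * ‖x - y‖ :=
    fun x hx y hy => hge x _ fun f hf => hup f hf x hx y hy
  have hbd : ∀ y ∈ sphere c r, h y = g y := by
    intro y hy
    have h1 := hlow y (sphere_subset_closedBall hy) y hy
    have h2 := hupp y (sphere_subset_closedBall hy) y hy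
    rw [sub_self, norm_zero, mul_zero] at h1 h2
    linarith
  have hlip : ∀ x ∈ closedBall c r, ∀ y ∈ closedBall c r, h x - h y ≤ L * ‖x - y‖ := by
    intro x hx z hz
    rcases hcl z hz with hz' | hz'
    · have h1 : ∀ y ∈ sphere c r, h y ≤ h z + L * ‖y - z‖ := by
        intro y hy
        have := hlow z hz y hy
        rw [norm_sub_rev] at this
        rw [hbd y hy]
        linarith
      rcases hcl x hx with hx' | hx'
      · have := hA (ball c r) isOpen_ball Subset.rfl z (h z) L hL
          (by rw [frontier_ball c hr.ne']; exact h1) (fun _ => le_rfl) x hx'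
        linarith
      · have := h1 x hx'
        linarith
    · have := hupp x hx z hz'
      rw [hbd z hz']
      linarith
  have hcont : ContinuousOn h (closedBall c r) := by
    exact continuousOn_of_lip hL hlip
  refine ⟨h, ⟨hcont.mono ball_subset_closedBall, ?_, ?_⟩, hlip, hbd⟩
  · intro V hV _ hVB
    exact hA V hV (subset_closure.trans hVB)
  · intro V hV _ hVB z a b hb hf hz x hx
    have hVB' : V ⊆ ball c r := subset_closure.trans hVB
    set W : Set E := {x | x ∈ V ∧ h x < a - b * ‖x - z‖} with hW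
    have hWV : W ⊆ V := fun x hx => hx.1
    have hWo : IsOpen W := by
      rw [isOpen_iff_mem_nhds]
      intro y hy
      have h1 : ContinuousAt h y :=
        hcont.continuousAt (mem_of_superset (isOpen_ball.mem_nhds (hVB' hy.1))
          ball_subset_closedBall)
      have h2 : ContinuousAt (fun x : E => a - b * ‖x - z‖) y := by fun_prop
      filter_upwards [hV.mem_nhds hy.1, h1.eventually_lt h2 hy.2] with w hw1 hw2
      exact ⟨hw1, hw2⟩
    set f : E → ℝ := fun x => if x ∈ W then a - b * ‖x - z‖ else h x with hf'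
    have hfW : ∀ x ∈ W, f x = a - b * ‖x - z‖ := fun x hx => if_pos hx
    have hfW' : ∀ x, x ∉ W → f x = h x := fun x hx => if_neg hx
    have hhf : ∀ x, h x ≤ f x := by
      intro x
      by_cases hxW : x ∈ W
      · rw [hfW x hxW]; exact hxW.2.le
      · rw [hfW' x hxW]
    have hzW : z ∉ W := by
      intro hzW
      have h1 := hz hzW.1
      have h2 := hzW.2
      rw [sub_self, norm_zero, mul_zero] at h2
      linarith
    have hfF : f ∈ F := by
      refine ⟨?_, ?_⟩
      · intro V' hV' hV'B z' a' b' hb' hf2 hz2 x hx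
        have hin : ∀ x ∈ V', h x ≤ a' + b' * ‖x - z'‖ :=
          hA V' hV' hV'B z' a' b' hb' (fun y hy => (hhf y).trans (hf2 y hy))
            (fun hz' => (hhf z').trans (hz2 hz'))
        by_cases hxW : x ∈ W
        · rw [hfW x hxW]
          refine cone_cone (hV'.inter hWo) hb' hb (fun h => hzW h.2) (fun h => ?_) ?_ x ⟨hx, hxW⟩
          · rw [← hfW z' h.2]; exact hz2 h.1
          · intro y hy
            rw [(hV'.inter hWo).frontier_eq] at hy
            have hy1 : y ∈ closure V' := closure_mono inter_subset_left hy.1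
            have hy2 : y ∈ closure V := closure_mono (inter_subset_right.trans hWV) hy.1
            by_cases hyW : y ∈ W
            · have : y ∈ frontier V' := by
                rw [hV'.frontier_eq]
                exact ⟨hy1, fun h => hy.2 ⟨h, hyW⟩⟩
              rw [← hfW y hyW]
              exact hf2 y this
            · have h1 : a - b * ‖y - z‖ ≤ h y := by
                by_cases hyV : y ∈ V
                · by_contra hlt
                  exact hyW ⟨hyV, not_le.1 hlt⟩
                · exact hf y (by rw [hV.frontier_eq]; exact ⟨hy2, hyV⟩)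
              refine h1.trans ?_
              by_cases hyV' : y ∈ V'
              · exact hin y hyV'
              · exact (hhf y).trans (hf2 y (by rw [hV'.frontier_eq]; exact ⟨hy1, hyV'⟩))
        · rw [hfW' x hxW]
          exact hin x hx
      · intro y hy
        rw [hfW' y fun h => hSB y hy (hVB' h.1), hbd y hy]
    by_contra hlt
    have hxW : x ∈ W := ⟨hx, not_le.1 hlt⟩
    have h1 := hle f hfF x (ball_subset_closedBall (hVB' hx))
    rw [hfW x hxW] at h1
    exact hlt h1

end Vale.Agent.N080
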