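import Vale.Agent.N080.Dir

/-!
A quantitative comparison principle for the finite difference infinity Laplacian on a graph.
-/

namespace Vale.Agent.N080

open Set

variable {X : Type*}

/-- Patching: a supersolution is changed by at most `2 δ N` into one all of whose downward
steps are at least `δ`. -/
theorem patch {adj : X → X → Prop} (hsymm : ∀ x y, adj x y → adj y x) {I : Set X} {v φ : X → ℝ}
    {δ N : ℝ} (hδ : 0 < δ)
    (hv : ∀ x ∈ I, ∃ y', adj x y' ∧ ∀ y, adj x y → v y' ≤ v y ∧ v y - v x ≤ v x - v y')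
    (hφ0 : ∀ x, 0 ≤ φ x) (hφN : ∀ x, φ x ≤ N)
    (hφ : ∀ x ∈ I, ∃ y, adj x y ∧ φ y ≤ φ x - 1) :
    ∃ v₁ : X → ℝ, (∀ x, v x ≤ v₁ x) ∧ (∀ x, v₁ x ≤ v x + 2 * δ * N) ∧ (∀ x, x ∉ I → v₁ x = v x) ∧
      ∀ x ∈ I, ∀ θ > 0, ∃ y₁, adj x y₁ ∧ δ - θ ≤ v₁ x - v₁ y₁ ∧
        ∀ y, adj x y → v₁ y - v₁ x ≤ v₁ x - v₁ y₁ + θ := by
  classical
  set G : Set X := {x | x ∉ I ∨ ∃ y, adj x y ∧ δ ≤ v x - v y} with hG
  have hnG : ∀ x, x ∉ G → x ∈ I ∧ ∀ y, adj x y → v x - v y < δ ∧ v y - v x < δ := by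
    intro x hx
    have h1 : x ∈ I := by
      by_contra h
      exact hx (Or.inl h)
    have h2 : ∀ y, adj x y → v x - v y < δ := by
      intro y hy
      by_contra h
      exact hx (Or.inr ⟨y, hy, not_lt.1 h⟩)
    obtain ⟨y', hy', h3⟩ := hv x h1
    exact ⟨h1, fun y hy => ⟨h2 y hy, ((h3 y hy).2).trans_lt (h2 y' hy')⟩⟩
  set F : Set (X → ℝ) :=
    {f | (∀ x ∈ G, f x ≤ v x) ∧ ∀ x, x ∉ G → ∀ y, adj x y → f x ≤ f y + δ} with hF
  have hvF : v ∈ F := ⟨fun x _ => le_rfl, fun x hx y hy => by linarith [((hnG x hx).2 y hy).1]⟩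
  have hbound : ∀ f ∈ F, ∀ n : ℕ, ∀ x, φ x < n → f x ≤ v x + 2 * δ * φ x := by
    intro f hf n
    induction n with
    | zero => intro x hx; exact absurd (hφ0 x) (not_le.2 (by simpa using hx))
    | succ n ih =>
      intro x hx
      by_cases hxG : x ∈ G
      · have := hf.1 x hxG
        have := mul_nonneg (by linarith : 0 ≤ 2 * δ) (hφ0 x)
        linarith
      · obtain ⟨hxI, h2⟩ := hnG x hxG
        obtain ⟨y, hy, h3⟩ := hφ x hxI
        have h4 := ih y (by push_cast at hx; linarith)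
        have h5 := hf.2 x hxG y hy
        have h6 := (h2 y hy).2
        have h7 := mul_le_mul_of_nonneg_left h3 (by linarith : 0 ≤ 2 * δ)
        linarith
  have hbound' : ∀ f ∈ F, ∀ x, f x ≤ v x + 2 * δ * N := by
    intro f hf x
    obtain ⟨n, hn⟩ := exists_nat_gt (φ x)
    have h1 := hbound f hf n x hn
    have h2 := mul_le_mul_of_nonneg_left (hφN x) (by linarith : 0 ≤ 2 * δ)
    linarith
  set v₁ : X → ℝ := fun x => sSup ((fun f : X → ℝ => f x) '' F) with hv₁
  have hle : ∀ f ∈ F, ∀ x, f x ≤ v₁ x := by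
    intro f hf x
    refine le_csSup ⟨v x + 2 * δ * N, ?_⟩ (mem_image_of_mem (fun f : X → ℝ => f x) hf)
    rintro _ ⟨f', hf', rfl⟩
    exact hbound' f' hf' x
  have hge : ∀ x t, (∀ f ∈ F, f x ≤ t) → v₁ x ≤ t := by
    intro x t ht
    refine csSup_le ⟨_, mem_image_of_mem (fun f : X → ℝ => f x) hvF⟩ ?_
    rintro _ ⟨f', hf', rfl⟩
    exact ht f' hf'
  have hG1 : ∀ x ∈ G, v₁ x = v x := fun x hx =>
    le_antisymm (hge x _ fun f hf => hf.1 x hx) (hle v hvF x)
  have hG2 : ∀ x, x ∉ G → ∀ y, adj x y → v₁ x ≤ v₁ y + δ := fun x hx y hy =>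
    hge x _ fun f hf => (hf.2 x hx y hy).trans (by linarith [hle f hf y])
  refine ⟨v₁, hle v hvF, fun x => hge x _ fun f hf => hbound' f hf x,
    fun x hx => hG1 x (Or.inl hx), ?_⟩
  intro x hx θ hθ
  by_cases hxG : x ∈ G
  · obtain ⟨y', hy', h3⟩ := hv x hx
    have h4 : δ ≤ v x - v y' := by
      rcases hxG with h | ⟨y, hy, h⟩
      · exact (h hx).elim
      · linarith [(h3 y hy).1]
    have h5 : y' ∈ G := by
      by_cases hy'I : y' ∈ I
      · obtain ⟨y'', hy'', h6⟩ := hv y' hy'I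
        exact Or.inr ⟨y'', hy'', h4.trans (h6 x (hsymm _ _ hy')).2⟩
      · exact Or.inl hy'I
    refine ⟨y', hy', by rw [hG1 x hxG, hG1 y' h5]; linarith, fun y hy => ?_⟩
    rw [hG1 y' h5]
    by_cases hyG : y ∈ G
    · rw [hG1 y hyG, hG1 x hxG]
      linarith [(h3 y hy).2]
    · have := hG2 y hyG x (hsymm _ _ hy)
      rw [hG1 x hxG] at this ⊢
      linarith
  · have hex : ∃ y₁, adj x y₁ ∧ δ - θ ≤ v₁ x - v₁ y₁ := by
      by_contra hcon
      push Not at hcon
      set f : X → ℝ := fun y => if y = x then v₁ x + θ else v₁ y with hf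
      have hf1 : ∀ y, v₁ y ≤ f y := by
        intro y
        by_cases h : y = x
        · simp only [hf, h, if_true]; linarith
        · simp only [hf, h, if_false]; exact le_rfl
      have hfF : f ∈ F := by
        refine ⟨fun y hy => ?_, fun y hy w hw => ?_⟩
        · have h : y ≠ x := fun h => hxG (h ▸ hy)
          simp only [hf, h, if_false]
          exact (hG1 y hy).le
        · by_cases h : y = x
          · subst h
            by_cases h' : w = y
            · rw [h']; linarith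
            · have := hcon w hw
              simp only [hf, h', if_true, if_false]
              linarith
          · have h1 := hG2 y hy w hw
            have h2 := hf1 w
            have h3 : f y = v₁ y := by simp only [hf, h, if_false]
            linarith
      have := hle f hfF x
      simp only [hf, if_true] at this
      linarith
    obtain ⟨y₁, hy₁, h1⟩ := hex
    refine ⟨y₁, hy₁, h1, fun y hy => ?_⟩
    have h2 : v₁ y ≤ v₁ x + δ := by
      by_cases hyG : y ∈ G
      · rw [hG1 y hyG]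
        linarith [((hnG x hxG).2 y hy).2, hle v hvF x]
      · exact hG2 y hyG x (hsymm _ _ hy)
    linarith

/-- Quantitative comparison of an approximate subsolution `w` with a supersolution `v`. -/
theorem fd_compare {adj : X → X → Prop} (hsymm : ∀ x y, adj x y → adj y x) {I : Set X}
    {v w φ : X → ℝ} {δ δ' κ l N m M W b : ℝ} (hδ : 0 < δ) (hδ' : δ' < δ) (hl : 0 ≤ l)
    (hκ : κ < l * δ ^ 2)
    (hv : ∀ x ∈ I, ∃ y', adj x y' ∧ ∀ y, adj x y → v y' ≤ v y ∧ v y - v x ≤ v x - v y')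
    (hw : ∀ x ∈ I, ∀ P, (∀ y, adj x y → w y - w x ≤ P) →
      ∀ y, adj x y → w x - w y ≤ max δ' (P + κ))
    (hφ0 : ∀ x, 0 ≤ φ x) (hφN : ∀ x, φ x ≤ N)
    (hφ : ∀ x ∈ I, ∃ y, adj x y ∧ φ y ≤ φ x - 1)
    (hm : ∀ x, m ≤ v x) (hM : ∀ x, v x ≤ m + M) (hW : ∀ x, w x ≤ W)
    (hb : ∀ x, x ∉ I → w x - v x ≤ b) (x₀ : X) :
    w x₀ - v x₀ ≤ b + 2 * δ * N + l * (M + 2 * δ * N) ^ 2 := by
  obtain ⟨v₁, h1, h2, h3, h4⟩ := patch hsymm hδ hv hφ0 hφN hφ
  set T : ℝ := M + 2 * δ * N with hT
  set t₁ : ℝ := m + T with ht₁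
  have hs0 : ∀ x, 0 ≤ t₁ - v₁ x := fun x => by linarith [h2 x, hM x]
  have hsT : ∀ x, t₁ - v₁ x ≤ T := fun x => by linarith [h1 x, hm x]
  have hT0 : 0 ≤ T := (hs0 x₀).trans (hsT x₀)
  set g : X → ℝ := fun x => v₁ x - l * (t₁ - v₁ x) ^ 2 with hg
  have hg1 : ∀ x, v₁ x - l * T ^ 2 ≤ g x := by
    intro x
    have := mul_le_mul_of_nonneg_left (pow_le_pow_left₀ (hs0 x) (hsT x) 2) hl
    simp only [hg]
    linarith
  have hg2 : ∀ x, g x ≤ v₁ x := by
    intro x
    have := mul_nonneg hl (sq_nonneg (t₁ - v₁ x))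
    simp only [hg]
    linarith
  set S : ℝ := sSup (range fun x => w x - g x) with hS
  have hbdd : BddAbove (range fun x => w x - g x) := by
    refine ⟨W - m + l * T ^ 2, ?_⟩
    rintro _ ⟨x, rfl⟩
    have := hg1 x
    have := hW x
    have := h1 x
    have := hm x
    simp only
    linarith
  have hleS : ∀ x, w x - g x ≤ S := fun x => le_csSup hbdd (mem_range_self x)
  have hmain : S ≤ b + l * T ^ 2 := by
    refine le_of_forall_pos_le_add fun η hη => ?_
    set D : ℝ := 2 * l * δ + 3 + 2 * l * T with hD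
    have hD0 : 0 < D := by positivity
    set θ : ℝ := min (min η δ) (min ((δ - δ') / 3) ((l * δ ^ 2 - κ) / (2 * D))) with hθ
    have hθ0 : 0 < θ := by
      refine lt_min (lt_min hη hδ) (lt_min (by linarith) (div_pos (by linarith) (by linarith)))
    have hθ1 : θ ≤ η := (min_le_left _ _).trans (min_le_left _ _)
    have hθ2 : θ ≤ δ := (min_le_left _ _).trans (min_le_right _ _)
    have hθ3 : θ ≤ (δ - δ') / 3 := (min_le_right _ _).trans (min_le_left _ _)
    have hθ4 : θ * (2 * D) ≤ l * δ ^ 2 - κ := by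
      have : θ ≤ (l * δ ^ 2 - κ) / (2 * D) := (min_le_right _ _).trans (min_le_right _ _)
      rwa [le_div_iff₀ (by linarith)] at this
    obtain ⟨_, ⟨x, rfl⟩, hx⟩ := exists_lt_of_lt_csSup (s := range fun x => w x - g x)
      ⟨_, mem_range_self x₀⟩ (show S - θ < S by linarith)
    simp only at hx
    by_cases hxI : x ∈ I
    · exfalso
      obtain ⟨y₁, hy₁, h5, h6⟩ := h4 x hxI θ hθ0
      set a : ℝ := v₁ x - v₁ y₁ with ha
      set q : ℝ := 1 + 2 * l * (t₁ - v₁ x) with hq
      have hq1 : 1 ≤ q := by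
        have := mul_nonneg (by linarith : 0 ≤ 2 * l) (hs0 x)
        linarith
      have hq2 : q ≤ 1 + 2 * l * T := by
        have := mul_le_mul_of_nonneg_left (hsT x) (by linarith : 0 ≤ 2 * l)
        linarith
      have ha0 : 0 ≤ a := by linarith
      have hP : ∀ y, adj x y → w y - w x ≤ (a + θ) * q + θ := by
        intro y hy
        have h7 : g y - g x = (v₁ y - v₁ x) * q - l * (v₁ y - v₁ x) ^ 2 := by
          simp only [hg, hq]; ring
        have h8 := mul_le_mul_of_nonneg_right (h6 y hy) (by linarith : 0 ≤ q)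
        have h9 := mul_nonneg hl (sq_nonneg (v₁ y - v₁ x))
        have h10 := hleS y
        linarith
      have h7 : g x - g y₁ = a * q + l * a ^ 2 := by
        simp only [hg, hq, ha]; ring
      have h8 := hw x hxI _ hP y₁ hy₁
      have h9 : a * q + l * a ^ 2 - θ ≤ w x - w y₁ := by
        have := hleS y₁
        linarith
      have h10 := mul_nonneg hl (sq_nonneg a)
      rcases le_max_iff.1 (h9.trans h8) with h | h
      · have := mul_le_mul_of_nonneg_left hq1 ha0
        linarith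
      · have h11 : (δ - θ) ^ 2 ≤ a ^ 2 := pow_le_pow_left₀ (by linarith) h5 2
        have h12 := mul_le_mul_of_nonneg_left h11 hl
        have h13 := mul_le_mul_of_nonneg_left hq2 hθ0.le
        have h14 := mul_nonneg hl (sq_nonneg θ)
        have h15 := mul_pos hθ0 hD0
        have h16 : θ * D = θ * (2 * l * δ + 3 + 2 * l * T) := by rw [hD]
        nlinarith
    · have h5 := hb x hxI
      have h6 := hg1 x
      rw [h3 x hxI] at h6
      linarith
  have h5 := hleS x₀
  have h6 := hg2 x₀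
  have h7 := h2 x₀
  linarith

end Vale.Agent.N080
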