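import Mathlib.Analysis.InnerProductSpace.Spectrum
import Mathlib.Analysis.SpecialFunctions.Pow.Deriv
import Vale.Agent.N080.Core

/-!
Lipschitz estimates, square roots of positive operators, and the passage from pointwise
expansions to the regularity of the gradient.
-/

set_option linter.unusedSectionVars false

namespace Vale.Agent.N080

open Vale.Agent.P080 Metric Set Filter
open scoped RealInnerProductSpace Topology

variable {E : Type*} [NormedAddCommGroup E] [InnerProductSpace ℝ E] [CompleteSpace E]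
  [FiniteDimensional ℝ E]

theorem exists_sqrt {A : E →L[ℝ] E} (hA : ∀ v w, ⟪A v, w⟫ = ⟪v, A w⟫)
    (hpos : ∀ v, v ≠ 0 → 0 < ⟪A v, v⟫) :
    ∃ S T : E →L[ℝ] E, (∀ v w, ⟪S v, w⟫ = ⟪v, S w⟫) ∧ (∀ v w, ⟪T v, w⟫ = ⟪v, T w⟫) ∧
      (∀ v, S (T v) = v) ∧ (∀ v, T (S v) = v) ∧ ∀ v, T (T v) = A v := by
  classical
  have hsym : (A : E →ₗ[ℝ] E).IsSymmetric := fun v w => hA v w
  set b := hsym.eigenvectorBasis rfl with hb
  set μ := hsym.eigenvalues rfl with hμ
  have hAb : ∀ i, A (b i) = μ i • b i := fun i => hsym.apply_eigenvectorBasis rfl i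
  have hμ0 : ∀ i, 0 < μ i := by
    intro i
    have h1 : ‖b i‖ = 1 := b.orthonormal.1 i
    have h2 := hpos (b i) (by intro h; rw [h, norm_zero] at h1; exact zero_ne_one h1)
    rwa [hAb, real_inner_smul_left, real_inner_self_eq_norm_sq, h1, one_pow, mul_one] at h2
  let dg : (Fin (Module.finrank ℝ E) → ℝ) → E →L[ℝ] E := fun f =>
    ∑ i, f i • (innerSL ℝ (b i)).smulRight (b i)
  have hdg : ∀ f v, dg f v = ∑ i, (f i * ⟪b i, v⟫) • b i := by
    intro f v
    simp only [dg, sum_apply, smul_apply, ContinuousLinearMap.smulRight_apply,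
      innerSL_apply_apply, smul_smul]
  have hdgs : ∀ f v w, ⟪dg f v, w⟫ = ⟪v, dg f w⟫ := by
    intro f v w
    rw [hdg, hdg, sum_inner, inner_sum]
    refine Finset.sum_congr rfl fun i _ => ?_
    rw [real_inner_smul_left, real_inner_smul_right, real_inner_comm v (b i)]
    ring
  have hdgb : ∀ f j, dg f (b j) = f j • b j := by
    intro f j
    rw [hdg, Finset.sum_eq_single j]
    · rw [real_inner_self_eq_norm_sq, b.orthonormal.1 j, one_pow, mul_one]
    · intro i _ hij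
      rw [b.orthonormal.2 hij, mul_zero, zero_smul]
    · intro h; exact absurd (Finset.mem_univ j) h
  have hext : ∀ P Q : E →L[ℝ] E, (∀ j, P (b j) = Q (b j)) → ∀ v, P v = Q v := by
    intro P Q h v
    have : (P : E →ₗ[ℝ] E) = (Q : E →ₗ[ℝ] E) := b.toBasis.ext fun j => by simpa using h j
    exact LinearMap.congr_fun this v
  have hs : ∀ i, √(μ i) ≠ 0 := fun i => (Real.sqrt_pos.2 (hμ0 i)).ne'
  refine ⟨dg fun i => (√(μ i))⁻¹, dg fun i => √(μ i), hdgs _, hdgs _, ?_, ?_, ?_⟩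
  · refine hext ((dg fun i => (√(μ i))⁻¹) ∘L dg fun i => √(μ i)) (ContinuousLinearMap.id ℝ E)
      fun j => ?_
    rw [ContinuousLinearMap.comp_apply, hdgb, map_smul, hdgb, smul_smul,
      mul_inv_cancel₀ (hs j), one_smul, ContinuousLinearMap.id_apply]
  · refine hext ((dg fun i => √(μ i)) ∘L dg fun i => (√(μ i))⁻¹) (ContinuousLinearMap.id ℝ E)
      fun j => ?_
    rw [ContinuousLinearMap.comp_apply, hdgb, map_smul, hdgb, smul_smul,
      inv_mul_cancel₀ (hs j), one_smul, ContinuousLinearMap.id_apply]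
  · refine hext ((dg fun i => √(μ i)) ∘L dg fun i => √(μ i)) A fun j => ?_
    rw [ContinuousLinearMap.comp_apply, hdgb, map_smul, hdgb, smul_smul,
      Real.mul_self_sqrt (hμ0 j).le, hAb]

theorem punctured {u : E → ℝ} {z : E} {ρ : ℝ} {g : ℝ → ℝ} (h0 : u z ≤ g 0)
    (h1 : ∀ x, ‖x - z‖ = ρ → u x ≤ g ρ) :
    ∀ x ∈ frontier (ball z ρ \ {z}), u x ≤ g ‖x - z‖ := by
  intro x hx
  rw [(isOpen_ball.sdiff isClosed_singleton).frontier_eq] at hx
  have h2 := closure_minimal (sdiff_subset.trans ball_subset_closedBall) isClosed_closedBall hx.1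
  rw [mem_closedBall, dist_eq_norm] at h2
  rcases h2.eq_or_lt with h3 | h3
  · rw [h3]; exact h1 x h3
  · have h4 : x = z := by
      by_contra h
      exact hx.2 ⟨by rwa [mem_ball, dist_eq_norm], h⟩
    rw [h4, sub_self, norm_zero]
    exact h0

/-- The Lipschitz estimate for a bounded right-hand side. -/
theorem Sub.lip_const {K : ℝ} {u : E → ℝ} {x : E} {ρ Λ : ℝ} (hρ : 0 < ρ) (hΛ : 0 < Λ)
    (hK : K * ρ ≤ Λ ^ 3) (hu : Sub (fun _ => 1) (fun _ => K) u (ball x ρ))
    (hM : ∀ a ∈ ball x ρ, ∀ b ∈ ball x ρ, u a - u b ≤ Λ * ρ) :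
    ∀ w ∈ closedBall x (ρ / 2), ∀ z ∈ closedBall x (ρ / 2), u w - u z ≤ 5 * Λ * ‖w - z‖ := by
  intro w hw z hz
  have hsub : closedBall x (ρ / 2) ⊆ ball x ρ := closedBall_subset_ball (by linarith)
  have hsub2 : ∀ y, ‖y - z‖ ≤ ρ / 4 → y ∈ ball x ρ := by
    intro y hy
    rw [mem_closedBall, dist_eq_norm] at hz
    rw [mem_ball, dist_eq_norm]
    have := norm_sub_le_norm_sub_add_norm_sub y z x
    linarith
  by_cases hwz : w ∈ ball z (ρ / 4) \ {z}
  · have key := hu.radial (V := ball z (ρ / 4) \ {z}) (isOpen_ball.sdiff isClosed_singleton)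
      (isBounded_ball.subset sdiff_subset) ?_ (z := z) (fun h => h.2 rfl)
      (g := fun s => u z + 5 * Λ * s - 4 * Λ / ρ * s ^ 2)
      (g₁ := fun s => 5 * Λ - 2 * (4 * Λ / ρ) * s)
      (g₂ := fun _ => -(2 * (4 * Λ / ρ))) (by fun_prop) (fun s _ => by fun_prop)
      (fun s _ => quad_d1 _ _ _ s) (fun s _ => quad_d2 _ _ s) ?_ ?_ w hwz
    · have : 0 ≤ 4 * Λ / ρ * ‖w - z‖ ^ 2 := by positivity
      linarith
    · intro y hy
      have := closure_minimal (sdiff_subset.trans ball_subset_closedBall) isClosed_closedBall hy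
      exact hsub2 y (by rwa [mem_closedBall, dist_eq_norm] at this)
    · intro y hy
      have h1 : ‖y - z‖ < ρ / 4 := by have := hy.1; rwa [mem_ball, dist_eq_norm] at this
      have h2 : 2 * (4 * Λ / ρ) * ‖y - z‖ ≤ 2 * Λ := by
        have h3 := mul_le_mul_of_nonneg_left h1.le (by positivity : 0 ≤ 2 * (4 * Λ / ρ))
        have h4 : 2 * (4 * Λ / ρ) * (ρ / 4) = 2 * Λ := by field_simp
        linarith
      have h3 : 0 < 4 * Λ / ρ := by positivity
      refine ⟨0, by simp, by norm_num, by linarith, by linarith, ?_⟩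
      set s := 5 * Λ - 2 * (4 * Λ / ρ) * ‖y - z‖ with hs
      have h4 : Λ ^ 2 ≤ s ^ 2 := pow_le_pow_left₀ hΛ.le (by linarith) 2
      have h5 : K ≤ Λ ^ 3 / ρ := by rwa [le_div_iff₀ hρ]
      have h6 : Λ ^ 2 * (4 * Λ / ρ) = 4 * (Λ ^ 3 / ρ) := by ring
      have h7 : 0 < Λ ^ 3 / ρ := by positivity
      have h8 := mul_le_mul_of_nonneg_right h4 h3.le
      have h9 : s ^ 2 * (-(2 * (4 * Λ / ρ)) / 4 + s * 0 ^ 2 / ‖y - z‖) =
          -(s ^ 2 * (4 * Λ / ρ)) / 2 := by ring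
      rw [h9]
      linarith
    · refine punctured (g := fun s => u z + 5 * Λ * s - 4 * Λ / ρ * s ^ 2)
        (by simp) fun y hy => ?_
      have h1 := hM y (hsub2 y hy.le) z (hsub hz)
      have h2 : 5 * Λ * (ρ / 4) - 4 * Λ / ρ * (ρ / 4) ^ 2 = Λ * ρ := by field_simp; ring
      linarith
  · by_cases h : w = z
    · rw [h]; simp
    · have h1 : ρ / 4 ≤ ‖w - z‖ := by
        by_contra h2
        exact hwz ⟨by rw [mem_ball, dist_eq_norm]; exact not_le.1 h2, h⟩
      have h2 := hM w (hsub hw) z (hsub hz)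
      nlinarith

theorem lip_scalar {K γ ρ s t t₁ H b η : ℝ} (hK : 0 < K) (hγ : 0 < γ) (hρ : 0 < ρ) (h0 : 0 < s)
    (ht0 : 0 < t) (ht₁0 : 0 < t₁) (htt : t ≤ t₁) (hst : s / ρ ≤ t / t₁)
    (hHρ : 32 * (H * t₁) ^ 2 ≤ γ) (hb2 : 2 ≤ b) (h8 : γ = 128 * K * (b * ρ))
    (hηt : η * t₁ = b / 4) (h2 : η * ((1 + γ) * t) ≤ b / 2) (h3 : 0 ≤ η * ((1 + γ) * t)) :
    (b - η * ((1 + γ) * t)) ^ 2 * (-(η * ((1 + γ) * (γ * (t / s)))) / 4 +
      (b - η * ((1 + γ) * t)) * (H * t) ^ 2 / s) < -(K * (1 + (b - η * ((1 + γ) * t)) ^ 4)) := by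
  have hη : η = b / (4 * t₁) := by
    rw [eq_div_iff (by positivity)]; linarith
  set g : ℝ := b - η * ((1 + γ) * t) with hg
  have hg1 : 1 ≤ g := by linarith
  have hg2 : g ≤ b := by linarith
  have hb0 : 0 < b := by linarith
  obtain ⟨q, hq⟩ : ∃ q, q = b * γ * (t / t₁) / s := ⟨_, rfl⟩
  have hq0 : 0 < q := by rw [hq]; positivity
  have h4 : q / 16 ≤ η * ((1 + γ) * (γ * (t / s))) / 4 := by
    have h5 : η * ((1 + γ) * (γ * (t / s))) / 4 = (1 + γ) * (q / 16) := by
      rw [hη, hq]; field_simp; ring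
    rw [h5]
    have := mul_pos hγ hq0
    linarith only [this]
  have h5 : g * (H * t) ^ 2 / s ≤ q / 32 := by
    have h6 : (H * t) ^ 2 ≤ γ * (t / t₁) / 32 := by
      have h7 : (H * t) ^ 2 = (H * t₁) ^ 2 * (t / t₁) * (t / t₁) := by field_simp
      have h8 : t / t₁ ≤ 1 := by rw [div_le_one ht₁0]; exact htt
      have h9 : 0 < t / t₁ := by positivity
      have h10 : (H * t₁) ^ 2 * (t / t₁) ≤ γ / 32 * 1 :=
        mul_le_mul (by linarith only [hHρ]) h8 h9.le (by positivity)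
      have h11 := mul_le_mul_of_nonneg_right h10 h9.le
      rw [h7]
      linarith only [h11]
    have h7 : g * (H * t) ^ 2 ≤ b * (γ * (t / t₁) / 32) :=
      mul_le_mul hg2 h6 (sq_nonneg _) hb0.le
    have h8 := div_le_div_of_nonneg_right h7 h0.le
    refine h8.trans (le_of_eq ?_)
    rw [hq]
    ring
  have h6 : 128 * K * b ^ 2 ≤ q := by
    have h7 : b * γ * (s / ρ) / s ≤ b * γ * (t / t₁) / s := by gcongr
    rw [hq]
    refine le_trans (le_of_eq ?_) h7
    rw [h8]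
    field_simp
  have h7 : g ^ 2 ≤ b ^ 2 := pow_le_pow_left₀ (by linarith only [hg1]) hg2 2
  have h9 : -(η * ((1 + γ) * (γ * (t / s)))) / 4 + g * (H * t) ^ 2 / s ≤ -(4 * K * g ^ 2) := by
    have := mul_le_mul_of_nonneg_left h7 hK.le
    linarith only [this, h4, h5, h6]
  have h10 := mul_le_mul_of_nonneg_left h9 (sq_nonneg g)
  have h11 : 1 ≤ g ^ 4 := one_le_pow₀ hg1
  have h12 := mul_le_mul_of_nonneg_left h11 hK.le
  have h13 : g ^ 2 * -(4 * K * g ^ 2) = -(4 * (K * g ^ 4)) := by ring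
  rw [h13] at h10
  linarith only [h10, h12, hK]

/-- The Lipschitz estimate at a point where the coefficients are the identity, for a right-hand
side of quartic growth in the gradient and a function of small oscillation. -/
theorem Sub.lip_nat {A : E → E →L[ℝ] E} {K H γ ρ : ℝ} {u : E → ℝ} (hK : 0 < K) (hγ : 0 < γ)
    (hγ1 : γ ≤ 1) (hρ : 0 < ρ) (hH : 0 ≤ H) (hHρ : 32 * (H * ρ ^ γ) ^ 2 ≤ γ)
    (hρK : ρ ≤ γ / (128 * K) / 2)
    (hu : Sub A (fun s => K * (1 + s ^ 4)) u (closedBall 0 ρ))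
    (hA : ∀ y ∈ closedBall (0 : E) ρ, ‖A y - 1‖ ≤ H * ‖y‖ ^ γ)
    (hM : ∀ y ∈ closedBall (0 : E) ρ, u y - u 0 ≤ γ / (128 * K) / 2) :
    ∀ y, ‖y‖ < ρ → u y - u 0 ≤ γ / (128 * K) / ρ * ‖y‖ := by
  intro y hy
  set m : ℝ := γ / (128 * K) with hm
  have hm0 : 0 < m := by positivity
  set b : ℝ := m / ρ with hb
  have hb2 : 2 ≤ b := by rw [hb, le_div_iff₀ hρ]; linarith
  have hbρ : b * ρ = m := by rw [hb]; field_simp
  set t₁ : ℝ := ρ ^ γ with ht₁
  have ht₁0 : 0 < t₁ := by positivity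
  set η : ℝ := b / (4 * t₁) with hη
  have hη0 : 0 < η := by positivity
  have hηt : η * t₁ = b / 4 := by rw [hη]; field_simp
  by_cases hy0 : y = 0
  · rw [hy0]; simp
  have key := hu.radial (V := ball 0 ρ \ {0}) (isOpen_ball.sdiff isClosed_singleton)
    (isBounded_ball.subset sdiff_subset)
    (closure_minimal (sdiff_subset.trans ball_subset_closedBall) isClosed_closedBall)
    (z := 0) (fun h => h.2 rfl)
    (g := fun s => u 0 + b * s - η * s ^ (1 + γ))
    (g₁ := fun s => b - η * ((1 + γ) * s ^ γ))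
    (g₂ := fun s => -(η * ((1 + γ) * (γ * s ^ (γ - 1))))) ?_ ?_ ?_ ?_ ?_ ?_ y
    ⟨by simpa using hy, hy0⟩
  · rw [sub_zero] at key
    have : 0 ≤ η * ‖y‖ ^ (1 + γ) := by positivity
    linarith
  · have := Real.continuous_rpow_const (q := 1 + γ) (by linarith)
    fun_prop
  · intro s hs
    have := Real.contDiffAt_rpow_const_of_ne (p := 1 + γ) (n := 2) hs.ne'
    exact (contDiffAt_const.add (contDiffAt_const.mul contDiffAt_id)).sub
      (contDiffAt_const.mul this)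
  · intro s hs
    have h1 := Real.hasDerivAt_rpow_const (x := s) (p := 1 + γ) (Or.inl hs.ne')
    have h2 := (((hasDerivAt_id s).const_mul b).const_add (u 0)).fun_sub (h1.const_mul η)
    refine HasDerivAt.congr_deriv h2 ?_
    rw [add_sub_cancel_left, mul_one]
  · intro s hs
    have h1 := Real.hasDerivAt_rpow_const (x := s) (p := γ) (Or.inl hs.ne')
    exact ((h1.const_mul (1 + γ)).const_mul η).const_sub b
  · intro w hw
    have h0 : 0 < ‖w‖ := norm_pos_iff.2 hw.2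
    have h1 : ‖w‖ < ρ := by simpa using hw.1
    rw [sub_zero]
    set s := ‖w‖ with hs
    set t : ℝ := s ^ γ with ht
    have ht0 : 0 < t := by positivity
    have htt : t ≤ t₁ := Real.rpow_le_rpow h0.le h1.le hγ.le
    have hst : s / ρ ≤ t / t₁ := by
      rw [ht, ht₁, ← Real.div_rpow h0.le hρ.le]
      calc s / ρ = (s / ρ) ^ (1 : ℝ) := by rw [Real.rpow_one]
        _ ≤ (s / ρ) ^ γ := Real.rpow_le_rpow_of_exponent_ge (by positivity)
            (by rw [div_le_one hρ]; exact h1.le) hγ1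
    have hs1 : s ^ (γ - 1) = t / s := by rw [Real.rpow_sub h0, Real.rpow_one]
    have hHt : H * t ≤ H * t₁ := mul_le_mul_of_nonneg_left htt hH
    have hHt0 : 0 ≤ H * t := by positivity
    have h2 : η * ((1 + γ) * t) ≤ b / 2 := by
      have h3 : (1 + γ) * t ≤ 2 * t₁ := mul_le_mul (by linarith) htt ht0.le (by norm_num)
      have h4 := mul_le_mul_of_nonneg_left h3 hη0.le
      linarith
    have h3 : 0 ≤ η * ((1 + γ) * t) := by positivity
    refine ⟨H * t, hA w (by simpa using h1.le), by nlinarith, by linarith, ?_, ?_⟩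
    · rw [hs1, neg_nonpos]; positivity
    · rw [hs1]
      exact lip_scalar hK hγ hρ h0 ht0 ht₁0 htt hst hHρ hb2 (by rw [hbρ, hm]; field_simp) hηt h2 h3
  · refine punctured (g := fun s => u 0 + b * s - η * s ^ (1 + γ)) ?_ fun w hw => ?_
    · rw [Real.zero_rpow (by linarith)]; simp
    · have h1 := hM w (by rw [mem_closedBall, dist_eq_norm]; exact hw.le)
      have h2 : η * ρ ^ (1 + γ) = b * ρ / 4 := by
        rw [Real.rpow_add hρ, Real.rpow_one, ← ht₁, mul_comm ρ t₁, ← mul_assoc, hηt]; ring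
      linarith

theorem Sub.of_lip {A : E → E →L[ℝ] E} {K L : ℝ} {u : E → ℝ} {Ω : Set E} (hΩ : IsOpen Ω)
    (hK : 0 ≤ K) (hL : 0 ≤ L) (hu : Sub A (fun s => K * (1 + s ^ 4)) u Ω)
    (hlip : ∀ x ∈ Ω, ∀ y ∈ Ω, u x - u y ≤ L * ‖x - y‖) :
    Sub A (fun _ => K * (1 + L ^ 4)) u Ω := by
  refine ⟨hu.1, fun z hz φ hφ hmax => le_trans ?_ (hu.2 z hz φ hφ hmax)⟩
  have h1 : ‖gradient φ z‖ ≤ L := by
    set p := gradient φ z with hp
    have hd : HasDerivAt (fun t : ℝ => φ (z + t • (-p))) (-‖p‖ ^ 2) 0 := by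
      have hl : HasDerivAt (fun t : ℝ => z + t • (-p)) (-p) 0 := by
        simpa using ((hasDerivAt_id (0 : ℝ)).smul_const (-p)).const_add z
      have h2 : HasFDerivAt φ (fderiv ℝ φ z) (z + (0 : ℝ) • (-p)) := by
        simpa using (hφ.differentiable (by simp) z).hasFDerivAt
      refine HasDerivAt.congr_deriv (h2.comp_hasDerivAt (0 : ℝ) hl) ?_
      rw [map_neg, ← real_inner_self_eq_norm_sq]
      congr 1
      rw [hp, gradient, InnerProductSpace.toDual_symm_apply]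
    have hline : Tendsto (fun t : ℝ => z + t • (-p)) (𝓝 0) (𝓝 z) := by
      have : Continuous fun t : ℝ => z + t • (-p) := by fun_prop
      simpa only [zero_smul, add_zero] using this.tendsto 0
    have h2 : ∀ᶠ t : ℝ in 𝓝[>] 0,
        -(L * ‖p‖) ≤ t⁻¹ • (φ (z + (0 + t) • (-p)) - φ (z + (0 : ℝ) • (-p))) := by
      filter_upwards [mem_nhdsWithin_of_mem_nhds (hline.eventually hmax),
        mem_nhdsWithin_of_mem_nhds (hline.eventually (hΩ.mem_nhds hz)), self_mem_nhdsWithin]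
        with t ht1 ht2 ht3
      have ht : 0 < t := ht3
      have h3 := hlip z hz _ ht2
      have h4 : ‖z - (z + t • (-p))‖ = t * ‖p‖ := by
        rw [sub_add_cancel_left, norm_neg, norm_smul, norm_neg, Real.norm_of_nonneg ht.le]
      rw [h4] at h3
      have h5 : u (z + t • (-p)) - φ (z + t • (-p)) ≤ u z - φ z := ht1
      rw [zero_add, zero_smul, add_zero, smul_eq_mul, le_inv_mul_iff₀ ht]
      linarith
    have h3 := ge_of_tendsto hd.tendsto_slope_zero_right h2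
    rcases (norm_nonneg p).eq_or_lt with h0 | h0
    · rw [← h0]; exact hL
    · nlinarith
  have h2 : ‖gradient φ z‖ ^ 4 ≤ L ^ 4 := pow_le_pow_left₀ (norm_nonneg _) h1 4
  have h3 := mul_le_mul_of_nonneg_left h2 hK
  simp only
  linarith

theorem holder_of_expansions {u : E → ℝ} {s : Set E} {t₀ B D β : ℝ} (ht : 0 < t₀) (hB : 0 < B)
    (hD : 1 ≤ D) (hβ : 0 < β) (hβ1 : β < 1)
    (hlip : ∀ c ∈ s, ∀ᶠ y in 𝓝 c, |u y - u c| ≤ B * ‖y - c‖)
    (h : ∀ c ∈ s, ∃ p : E, ∀ y, ‖y - c‖ ≤ t₀ →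
      |u y - u c - ⟪p, y - c⟫| ≤ D * B * ‖y - c‖ * (‖y - c‖ / t₀) ^ β) :
    (∀ c ∈ s, DifferentiableAt ℝ u c ∧ ‖gradient u c‖ ≤ B) ∧
      ∀ c ∈ s, ∀ c' ∈ s,
        ‖gradient u c - gradient u c'‖ ≤ 576 * D * B * (‖c - c'‖ / (12 * t₀)) ^ β := by
  have key : ∀ c ∈ s, DifferentiableAt ℝ u c ∧ ‖gradient u c‖ ≤ B ∧
      Zy.Expands u c (gradient u c) (12 * t₀) B (12 * D) β := by
    intro c hc
    obtain ⟨p, hp⟩ := h c hc
    have h1 : Zy.Expands u c p (12 * t₀) B (12 * D) β := by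
      intro y hy
      refine (hp y (by linarith)).trans ?_
      rcases (norm_nonneg (y - c)).eq_or_lt with h0 | h0
      · rw [← h0, mul_zero, zero_mul]; positivity
      · have h2 : (‖y - c‖ / t₀) ^ β ≤ 12 * (‖y - c‖ / (12 * t₀)) ^ β := by
          have h3 : ‖y - c‖ / t₀ = 12 * (‖y - c‖ / (12 * t₀)) := by field_simp
          rw [h3, Real.mul_rpow (by norm_num) (by positivity)]
          apply mul_le_mul_of_nonneg_right _ (by positivity)
          calc (12 : ℝ) ^ β ≤ 12 ^ (1 : ℝ) :=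
                Real.rpow_le_rpow_of_exponent_le (by norm_num) hβ1.le
            _ = 12 := Real.rpow_one _
        rw [Real.rpow_add (by positivity), Real.rpow_one]
        have h3 : 12 * D * B * (12 * t₀) * (‖y - c‖ / (12 * t₀) * (‖y - c‖ / (12 * t₀)) ^ β) =
            D * B * ‖y - c‖ * (12 * (‖y - c‖ / (12 * t₀)) ^ β) := by field_simp
        rw [h3]
        exact mul_le_mul_of_nonneg_left h2 (by positivity)
    have h2 := h1.hasGradientAt (by positivity) hβ
    refine ⟨h2.differentiableAt, ?_, by rw [h2.gradient]; exact h1⟩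
    rw [gradient, LinearIsometryEquiv.norm_map]
    exact norm_fderiv_le_of_lip' ℝ hB.le (hlip c hc)
  refine ⟨fun c hc => ⟨(key c hc).1, (key c hc).2.1⟩, fun c hc c' hc' => ?_⟩
  have := Zy.Expands.norm_sub_le (by positivity) hB (by linarith) hβ hβ1 (key c hc).2.2
    (key c' hc').2.2 (key c hc).2.1 (key c' hc').2.1
  refine this.trans (le_of_eq ?_)
  ring

end Vale.Agent.N080
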