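import Vale.Agent.N080.Lip

/-!
Interior `C^{1,β}` regularity for `D²u (A ∇u, A ∇u) = F (x, u, ∇u)`.
-/

set_option linter.unusedSectionVars false

namespace Vale.Agent.N080

open Vale.Agent.P080 Metric Set Filter
open scoped RealInnerProductSpace Topology

variable {E : Type} [NormedAddCommGroup E] [InnerProductSpace ℝ E] [CompleteSpace E]
  [FiniteDimensional ℝ E]

theorem abs_lip {u : E → ℝ} {S : Set E} {L : ℝ} {c : E} (hS : S ∈ 𝓝 c)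
    (h : ∀ x ∈ S, ∀ y ∈ S, u x - u y ≤ L * ‖x - y‖) : ∀ᶠ y in 𝓝 c, |u y - u c| ≤ L * ‖y - c‖ := by
  filter_upwards [hS] with y hy
  have h1 := h y hy c (mem_of_mem_nhds hS)
  have h2 := h c (mem_of_mem_nhds hS) y hy
  rw [norm_sub_rev] at h2
  rw [abs_le]
  constructor <;> linarith

theorem le_of_forall_gt_mul {X Y a : ℝ} (h : ∀ b, a < b → X ≤ b * Y) : X ≤ a * Y := by
  have h1 : Tendsto (fun b : ℝ => b * Y) (𝓝[>] a) (𝓝 (a * Y)) :=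
    ((continuous_id.mul continuous_const).tendsto a).mono_left nhdsWithin_le_nhds
  exact ge_of_tendsto h1 (eventually_nhdsWithin_of_forall h)

/-- The estimate for a bounded right-hand side. -/
theorem quant {α C : ℝ} (hα : 0 < α) (hα1 : α < 1) (hC : 0 < C)
    (hE : H510.ConeEstimate E α C) :
    ∃ D : ℝ, 0 < D ∧ ∀ (Ω : Set E) (u : E → ℝ) (K M ρ Λ : ℝ), 0 ≤ K → 0 < ρ → 0 ≤ Λ →
      M ≤ Λ * ρ → K * ρ ≤ Λ ^ 3 →
      Sub (fun _ => 1) (fun _ => K) u Ω → Sub (fun _ => 1) (fun _ => K) (fun x => -u x) Ω →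
      (∀ a ∈ Ω, ∀ b ∈ Ω, u a - u b ≤ M) →
      (∀ x, ball x ρ ⊆ Ω → DifferentiableAt ℝ u x ∧ ‖gradient u x‖ ≤ D * Λ) ∧
      ∀ x y, ball x ρ ⊆ Ω → ball y ρ ⊆ Ω →
        ‖gradient u x - gradient u y‖ ≤ D * Λ * (‖x - y‖ / ρ) ^ expo α 1 := by
  obtain ⟨D, hD, hcore⟩ := core hα hα1 hC hE (γ := 1) one_pos le_rfl
  refine ⟨2880 * D, by linarith, ?_⟩
  intro Ω u K M ρ Λ₀ hK hρ hΛ₀ hM hKΛ hu hu' hosc
  have main : ∀ Λ, Λ₀ < Λ →
      (∀ x, ball x ρ ⊆ Ω → DifferentiableAt ℝ u x ∧ ‖gradient u x‖ ≤ Λ * (2880 * D)) ∧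
      ∀ x y, ball x ρ ⊆ Ω → ball y ρ ⊆ Ω →
        ‖gradient u x - gradient u y‖ ≤ Λ * (2880 * D * (‖x - y‖ / ρ) ^ expo α 1) := by
    intro Λ hΛ
    have hΛ0 : 0 < Λ := hΛ₀.trans_lt hΛ
    have hK3 : K * ρ ≤ Λ ^ 3 := hKΛ.trans (pow_le_pow_left₀ hΛ₀ hΛ.le 3)
    have hM' : M ≤ Λ * ρ := hM.trans (mul_le_mul_of_nonneg_right hΛ.le hρ.le)
    have hlip : ∀ x, ball x ρ ⊆ Ω → ∀ w ∈ closedBall x (ρ / 2), ∀ z ∈ closedBall x (ρ / 2),
        u w - u z ≤ 5 * Λ * ‖w - z‖ := fun x hx =>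
      Sub.lip_const hρ hΛ0 hK3 (hu.mono hx) fun a ha b hb => (hosc a (hx ha) b (hx hb)).trans hM'
    obtain ⟨k1, k2⟩ := holder_of_expansions (u := u) (s := {x | ball x ρ ⊆ Ω}) (t₀ := ρ / 2 / 4)
      (B := 5 * Λ) (by positivity) (by positivity) hD (expo_pos hα one_pos)
      (expo_lt hα hα1 one_pos)
      (fun c hc => abs_lip (closedBall_mem_nhds c (by positivity)) (hlip c hc))
      (fun c hc => by
        have hsub : closedBall c (ρ / 2) ⊆ Ω := (closedBall_subset_ball (by linarith)).trans hc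
        refine hcore (fun _ => 1) K u c (ρ / 2) (5 * Λ) (by positivity) (by positivity) hK ?_
          (hu.mono hsub) (hu'.mono hsub) (fun y _ => ?_) (hlip c hc)
        · have : 0 < Λ ^ 3 := by positivity
          have := mul_nonneg hK hρ.le
          nlinarith
        · rw [sub_self, norm_zero]; positivity)
    refine ⟨fun x hx => ⟨(k1 x hx).1, (k1 x hx).2.trans (by nlinarith)⟩, fun x y hx hy => ?_⟩
    refine (k2 x hx y hy).trans ?_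
    have h1 : (‖x - y‖ / (12 * (ρ / 2 / 4))) ^ expo α 1 ≤ (‖x - y‖ / ρ) ^ expo α 1 := by
      apply Real.rpow_le_rpow (by positivity) _ (expo_pos hα one_pos).le
      exact div_le_div_of_nonneg_left (norm_nonneg _) hρ (by linarith)
    calc 576 * D * (5 * Λ) * (‖x - y‖ / (12 * (ρ / 2 / 4))) ^ expo α 1
        ≤ 576 * D * (5 * Λ) * (‖x - y‖ / ρ) ^ expo α 1 :=
          mul_le_mul_of_nonneg_left h1 (by positivity)
      _ = _ := by ring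
  refine ⟨fun x hx => ⟨((main (Λ₀ + 1) (by linarith)).1 x hx).1, ?_⟩, fun x y hx hy => ?_⟩
  · rw [mul_comm]
    exact le_of_forall_gt_mul fun Λ hΛ => ((main Λ hΛ).1 x hx).2
  · refine (le_of_forall_gt_mul fun Λ hΛ => (main Λ hΛ).2 x y hx hy).trans (le_of_eq ?_)
    ring

theorem exists_small {H γ κ : ℝ} (hγ : 0 < γ) (hκ : 0 < κ) :
    ∃ r₀ > 0, ∀ r, 0 ≤ r → r ≤ r₀ → H * r ^ γ ≤ κ := by
  have h1 : Tendsto (fun r : ℝ => H * r ^ γ) (𝓝 0) (𝓝 0) := by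
    have h2 := ((Real.continuous_rpow_const hγ.le).tendsto 0).const_mul H
    rwa [Real.zero_rpow hγ.ne', mul_zero] at h2
  obtain ⟨δ, hδ, h⟩ := Metric.eventually_nhds_iff.1 (h1.eventually (gt_mem_nhds hκ))
  refine ⟨δ / 2, by positivity, fun r hr0 hr => (h ?_).le⟩
  rw [dist_zero_right, Real.norm_of_nonneg hr0]
  linarith

/-- Frames which straighten the coefficients, with uniform bounds near a point. -/
theorem frames {A : E → E →L[ℝ] E} {Ω : Set E} (hΩ : IsOpen Ω) {H γ : ℝ} (hγ : 0 < γ)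
    (hγ1 : γ ≤ 1) (hH : 0 ≤ H) (hs : ∀ x ∈ Ω, ∀ v w, ⟪A x v, w⟫ = ⟪v, A x w⟫)
    (hp : ∀ x ∈ Ω, ∀ v, v ≠ 0 → 0 < ⟪A x v, v⟫)
    (hA : ∀ x ∈ Ω, ∀ y ∈ Ω, ‖A x - A y‖ ≤ H * ‖x - y‖ ^ γ) {x₁ : E} (hx₁ : x₁ ∈ Ω) :
    ∃ μ ρ : ℝ, 1 ≤ μ ∧ 0 < ρ ∧ ball x₁ ρ ⊆ Ω ∧ ∀ c ∈ ball x₁ ρ, ∃ S T : E →L[ℝ] E,
      (∀ v w, ⟪S v, w⟫ = ⟪v, S w⟫) ∧ (∀ v, S (T v) = v) ∧ (∀ v, T (S v) = v) ∧
      (∀ v, ‖S v‖ ≤ μ * ‖v‖) ∧ (∀ v, ‖T v‖ ≤ μ * ‖v‖) ∧
      ∀ y, c + T y ∈ Ω → ‖S ∘L A (c + T y) ∘L S - 1‖ ≤ μ ^ 3 * H * ‖y‖ ^ γ := by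
  obtain ⟨S₁', T₁', -, hT₁', hST₁', -, hTT₁'⟩ := exists_sqrt (hs x₁ hx₁) (hp x₁ hx₁)
  set ν : ℝ := ‖S₁'‖ + 1 with hν
  have hν1 : 1 ≤ ν := by linarith [norm_nonneg S₁']
  have hlow : ∀ v, ‖v‖ ^ 2 ≤ ν ^ 2 * ⟪A x₁ v, v⟫ := by
    intro v
    have h1 : ‖v‖ ≤ ν * ‖T₁' v‖ := by
      have h2 := S₁'.le_opNorm (T₁' v)
      rw [hST₁'] at h2
      nlinarith [norm_nonneg (T₁' v)]
    rw [← hTT₁', hT₁', real_inner_self_eq_norm_sq, ← mul_pow]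
    exact pow_le_pow_left₀ (norm_nonneg _) h1 2
  obtain ⟨r₀, hr₀, hsm⟩ := exists_small (H := H) (κ := 1 / (2 * ν ^ 2)) hγ (by positivity)
  obtain ⟨r₁, hr₁, hball⟩ := Metric.isOpen_iff.1 hΩ x₁ hx₁
  set μ : ℝ := 2 * ν + ‖A x₁‖ + 1 with hμ
  have hA0 := norm_nonneg (A x₁)
  have hμ1 : 1 ≤ μ := by linarith
  refine ⟨μ, min r₀ r₁, hμ1, lt_min hr₀ hr₁, (ball_subset_ball (min_le_right _ _)).trans hball,
    fun c hc => ?_⟩
  have hcΩ : c ∈ Ω := hball (ball_subset_ball (min_le_right _ _) hc)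
  have hcl : ‖A c - A x₁‖ ≤ 1 / (2 * ν ^ 2) := by
    refine (hA c hcΩ x₁ hx₁).trans (hsm _ (norm_nonneg _) ?_)
    rw [mem_ball, dist_eq_norm] at hc
    exact hc.le.trans (min_le_left _ _)
  have hq : ∀ (B : E →L[ℝ] E) v, |⟪B v, v⟫| ≤ ‖B‖ * ‖v‖ ^ 2 := by
    intro B v
    refine (abs_real_inner_le_norm _ _).trans ?_
    have := mul_le_mul_of_nonneg_right (B.le_opNorm v) (norm_nonneg v)
    linarith
  have hdiff : ∀ v, |⟪A c v, v⟫ - ⟪A x₁ v, v⟫| ≤ 1 / (2 * ν ^ 2) * ‖v‖ ^ 2 := by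
    intro v
    have h1 := hq (A c - A x₁) v
    rw [sub_apply, inner_sub_left] at h1
    exact h1.trans (mul_le_mul_of_nonneg_right hcl (sq_nonneg _))
  obtain ⟨S, T, hS, hT, hST, hTS, hTT⟩ := exists_sqrt (hs c hcΩ) (hp c hcΩ)
  have hTn : ∀ v, ‖T v‖ ^ 2 = ⟪A c v, v⟫ := by
    intro v
    rw [← hTT, hT, real_inner_self_eq_norm_sq]
  have hν2 : 1 ≤ ν ^ 2 := one_le_pow₀ hν1
  have hT1 : ∀ v, ‖T v‖ ≤ μ * ‖v‖ := by
    intro v
    refine (sq_le_sq₀ (norm_nonneg _) (by positivity)).1 ?_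
    have h1 := (abs_le.1 (hdiff v)).2
    have h2 := (abs_le.1 (hq (A x₁) v)).2
    have h3 : 1 / (2 * ν ^ 2) ≤ 1 := by rw [div_le_one (by positivity)]; linarith
    have h4 := mul_le_mul_of_nonneg_right h3 (sq_nonneg ‖v‖)
    have h5 : ‖A x₁‖ + 1 ≤ μ ^ 2 := by nlinarith
    have h6 := mul_le_mul_of_nonneg_right h5 (sq_nonneg ‖v‖)
    rw [hTn, mul_pow]
    linarith
  have hT2 : ∀ v, ‖v‖ ≤ μ * ‖T v‖ := by
    intro v
    refine (sq_le_sq₀ (norm_nonneg _) (by positivity)).1 ?_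
    have h1 := mul_le_mul_of_nonneg_left (abs_le.1 (hdiff v)).1 (sq_nonneg ν)
    have h2 := hlow v
    have h3 : ν ^ 2 * -(1 / (2 * ν ^ 2) * ‖v‖ ^ 2) = -(‖v‖ ^ 2 / 2) := by field_simp
    have h5 : 2 * ν ^ 2 ≤ μ ^ 2 := by nlinarith
    have h6 := mul_le_mul_of_nonneg_right h5 (sq_nonneg ‖T v‖)
    rw [h3, ← hTn] at h1
    rw [mul_pow]
    linarith
  have hS1 : ∀ v, ‖S v‖ ≤ μ * ‖v‖ := by
    intro v
    have := hT2 (S v)
    rwa [hTS] at this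
  refine ⟨S, T, hS, hST, hTS, hS1, hT1, fun y hy => ?_⟩
  have h1 : ‖A (c + T y) - A c‖ ≤ μ * H * ‖y‖ ^ γ := by
    refine (hA _ hy c hcΩ).trans ?_
    rw [add_sub_cancel_left]
    have h2 : ‖T y‖ ^ γ ≤ μ * ‖y‖ ^ γ := by
      calc ‖T y‖ ^ γ ≤ (μ * ‖y‖) ^ γ := Real.rpow_le_rpow (norm_nonneg _) (hT1 y) hγ.le
        _ = μ ^ γ * ‖y‖ ^ γ := Real.mul_rpow (by linarith) (norm_nonneg _)
        _ ≤ μ * ‖y‖ ^ γ := by
          apply mul_le_mul_of_nonneg_right _ (by positivity)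
          calc μ ^ γ ≤ μ ^ (1 : ℝ) := Real.rpow_le_rpow_of_exponent_le hμ1 hγ1
            _ = μ := Real.rpow_one _
    have := mul_le_mul_of_nonneg_left h2 hH
    linarith
  refine ContinuousLinearMap.opNorm_le_bound _ (by positivity) fun v => ?_
  have h2 : (S ∘L A (c + T y) ∘L S - 1) v = S ((A (c + T y) - A c) (S v)) := by
    rw [sub_apply, sub_apply, map_sub, ← hTT, hTS, hST]
    rfl
  rw [h2]
  calc ‖S ((A (c + T y) - A c) (S v))‖ ≤ μ * ‖(A (c + T y) - A c) (S v)‖ := hS1 _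
    _ ≤ μ * (‖A (c + T y) - A c‖ * ‖S v‖) :=
        mul_le_mul_of_nonneg_left (ContinuousLinearMap.le_opNorm _ _) (by linarith)
    _ ≤ μ * (μ * H * ‖y‖ ^ γ * (μ * ‖v‖)) := by
        apply mul_le_mul_of_nonneg_left _ (by linarith)
        exact mul_le_mul h1 (hS1 v) (norm_nonneg _) (by positivity)
    _ = _ := by ring

theorem local_lip {A : E → E →L[ℝ] E} {u : E → ℝ} {K H γ μ ρ : ℝ} {x₁ : E} (hγ : 0 < γ)
    (hγ1 : γ ≤ 1) (hK : 0 ≤ K) (hH : 0 ≤ H) (hμ : 1 ≤ μ) (hρ : 0 < ρ)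
    (hu : Sub A (fun s => K * (1 + s ^ 4)) u (ball x₁ ρ))
    (hfr : ∀ c ∈ ball x₁ ρ, ∃ S T : E →L[ℝ] E,
      (∀ v w, ⟪S v, w⟫ = ⟪v, S w⟫) ∧ (∀ v, S (T v) = v) ∧ (∀ v, T (S v) = v) ∧
      (∀ v, ‖S v‖ ≤ μ * ‖v‖) ∧ (∀ v, ‖T v‖ ≤ μ * ‖v‖) ∧
      ∀ y, c + T y ∈ ball x₁ ρ → ‖S ∘L A (c + T y) ∘L S - 1‖ ≤ H * ‖y‖ ^ γ) :
    ∃ ρ₂ L : ℝ, 0 < ρ₂ ∧ ρ₂ ≤ ρ ∧ 0 < L ∧
      ∀ w ∈ ball x₁ ρ₂, ∀ z ∈ ball x₁ ρ₂, u w - u z ≤ L * ‖w - z‖ := by
  set K' : ℝ := K * μ ^ 4 + 1 with hK'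
  have hK'0 : 0 < K' := by positivity
  set m : ℝ := γ / (128 * K') with hm
  have hm0 : 0 < m := by positivity
  have hca : ContinuousAt u x₁ := hu.1.continuousAt (ball_mem_nhds x₁ hρ)
  obtain ⟨δ, hδ, hδ'⟩ := Metric.continuousAt_iff.1 hca (m / 4) (by positivity)
  obtain ⟨r₀, hr₀, hsm⟩ := exists_small (H := H) (κ := γ / 6) hγ (by positivity)
  set a : ℝ := min ρ δ with ha
  have ha0 : 0 < a := lt_min hρ hδ
  have ha1 : a ≤ ρ := min_le_left _ _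
  have ha2 : a ≤ δ := min_le_right _ _
  set ρ₁ : ℝ := min (a / (2 * μ)) (min (m / 2) r₀) with hρ₁
  have hρ₁0 : 0 < ρ₁ := lt_min (by positivity) (lt_min (by positivity) hr₀)
  have h1 : μ * ρ₁ ≤ a / 2 := by
    have : ρ₁ ≤ a / (2 * μ) := min_le_left _ _
    rw [le_div_iff₀ (by positivity)] at this
    linarith
  have h2 : ρ₁ ≤ m / 2 := (min_le_right _ _).trans (min_le_left _ _)
  have h3 : H * ρ₁ ^ γ ≤ γ / 6 := hsm _ hρ₁0.le ((min_le_right _ _).trans (min_le_right _ _))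
  have h4 : 32 * (H * ρ₁ ^ γ) ^ 2 ≤ γ := by
    have := pow_le_pow_left₀ (by positivity) h3 2
    nlinarith
  have h5 : ρ₁ / (2 * μ) ≤ a / 2 := by
    have : ρ₁ / (2 * μ) ≤ ρ₁ := div_le_self hρ₁0.le (by linarith)
    nlinarith
  refine ⟨ρ₁ / (2 * μ), m / ρ₁ * μ, by positivity, by linarith, by positivity, ?_⟩
  intro w hw z hz
  rw [mem_ball, dist_eq_norm] at hw hz
  obtain ⟨S, T, hS, hST, hTS, hS1, hT1, hAA⟩ := hfr z (by rw [mem_ball, dist_eq_norm]; linarith)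
  have hin : ∀ y ∈ closedBall (0 : E) ρ₁, ‖z + T y - x₁‖ < a := by
    intro y hy
    rw [mem_closedBall, dist_zero_right] at hy
    have h6 : z + T y - x₁ = (z - x₁) + T y := by abel
    have h7 := (hT1 y).trans (mul_le_mul_of_nonneg_left hy (by linarith))
    have h8 := norm_add_le (z - x₁) (T y)
    rw [h6]
    linarith
  have hin' : ∀ y ∈ closedBall (0 : E) ρ₁, z + T y ∈ ball x₁ ρ := fun y hy => by
    rw [mem_ball, dist_eq_norm]; exact (hin y hy).trans_le ha1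
  have hsub := (hu.change (b' := fun s => K' * (1 + s ^ 4)) hS hST hTS z (fun p => by
    have h6 : ‖S p‖ ^ 4 ≤ (μ * ‖p‖) ^ 4 := pow_le_pow_left₀ (norm_nonneg _) (hS1 p) 4
    have h7 : 1 ≤ μ ^ 4 := one_le_pow₀ hμ
    have h8 := mul_le_mul_of_nonneg_left h6 hK
    have h9 := mul_le_mul_of_nonneg_left h7 hK
    have h10 : 0 ≤ ‖p‖ ^ 4 := by positivity
    rw [hK']
    nlinarith)).mono (Ω' := closedBall 0 ρ₁) hin'
  have hwz : ‖w - z‖ < ρ₁ / μ := by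
    have h6 := norm_sub_le_norm_sub_add_norm_sub w x₁ z
    rw [norm_sub_rev x₁ z] at h6
    have h7 : ρ₁ / μ = 2 * (ρ₁ / (2 * μ)) := by field_simp
    linarith
  have key := Sub.lip_nat hK'0 hγ hγ1 hρ₁0 hH h4 h2 hsub (fun y hy => hAA y (hin' y hy))
    (fun y hy => by
      have h6 := hδ' (x := z + T y) (by rw [dist_eq_norm]; exact (hin y hy).trans_le ha2)
      have h7 := hδ' (x := z + T 0) (by
        rw [dist_eq_norm]; exact (hin 0 (mem_closedBall_self hρ₁0.le)).trans_le ha2)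
      rw [Real.dist_eq, abs_lt] at h6 h7
      linarith) (S (w - z)) (by
      rw [lt_div_iff₀ (by linarith)] at hwz
      linarith [hS1 (w - z)])
  simp only [hTS, map_zero, add_zero, add_sub_cancel] at key
  refine key.trans ?_
  rw [mul_assoc]
  exact mul_le_mul_of_nonneg_left (hS1 _) (by positivity)

/-- Local Hölder continuity of the gradient for Hölder coefficients and a right-hand side of
quartic growth in the gradient. -/
theorem general {α C γ : ℝ} (hα : 0 < α) (hα1 : α < 1) (hC : 0 < C)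
    (hE : H510.ConeEstimate E α C) (hγ : 0 < γ) (hγ1 : γ ≤ 1)
    {A : E → E →L[ℝ] E} {Ω : Set E} (hΩ : IsOpen Ω) {u : E → ℝ} {K H : ℝ} (hK : 0 ≤ K)
    (hH : 0 ≤ H) (hs : ∀ x ∈ Ω, ∀ v w, ⟪A x v, w⟫ = ⟪v, A x w⟫)
    (hp : ∀ x ∈ Ω, ∀ v, v ≠ 0 → 0 < ⟪A x v, v⟫)
    (hA : ∀ x ∈ Ω, ∀ y ∈ Ω, ‖A x - A y‖ ≤ H * ‖x - y‖ ^ γ)
    (hu : Sub A (fun s => K * (1 + s ^ 4)) u Ω)
    (hu' : Sub A (fun s => K * (1 + s ^ 4)) (fun x => -u x) Ω) {x₁ : E} (hx₁ : x₁ ∈ Ω) :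
    ∃ ρ > 0, ∃ C' : ℝ, (∀ x ∈ ball x₁ ρ, DifferentiableAt ℝ u x) ∧
      ∀ x ∈ ball x₁ ρ, ∀ y ∈ ball x₁ ρ,
        ‖gradient u x - gradient u y‖ ≤ C' * ‖x - y‖ ^ expo α γ := by
  obtain ⟨D, hD, hcore⟩ := core hα hα1 hC hE hγ hγ1
  obtain ⟨μ, ρ, hμ, hρ, hρΩ, hfr⟩ := frames hΩ hγ hγ1 hH hs hp hA hx₁
  set H' : ℝ := μ ^ 3 * H with hH'
  have hH'0 : 0 ≤ H' := by positivity
  obtain ⟨ρ₂, L₀, hρ₂, hρ₂ρ, hL₀, hlip⟩ := local_lip hγ hγ1 hK hH'0 hμ hρ (hu.mono hρΩ)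
    fun c hc => by
      obtain ⟨S, T, k1, k2, k3, k4, k5, k6⟩ := hfr c hc
      exact ⟨S, T, k1, k2, k3, k4, k5, fun y hy => k6 y (hρΩ hy)⟩
  have hΩ₂ : ball x₁ ρ₂ ⊆ Ω := (ball_subset_ball hρ₂ρ).trans hρΩ
  have hv := (hu.mono hΩ₂).of_lip isOpen_ball hK hL₀.le hlip
  have hv' := (hu'.mono hΩ₂).of_lip isOpen_ball hK hL₀.le fun x hx y hy => by
    have := hlip y hy x hx
    rw [norm_sub_rev] at this
    linarith
  set K₂ : ℝ := K * (1 + L₀ ^ 4) with hK₂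
  have hK₂0 : 0 ≤ K₂ := by positivity
  obtain ⟨r₀, hr₀, hsm⟩ := exists_small (H := H') (κ := 1 / 64) hγ (by positivity)
  set R : ℝ := min (ρ₂ / (2 * μ)) r₀ with hR
  have hR0 : 0 < R := lt_min (by positivity) hr₀
  have h1 : μ * R ≤ ρ₂ / 2 := by
    have : R ≤ ρ₂ / (2 * μ) := min_le_left _ _
    rw [le_div_iff₀ (by positivity)] at this
    linarith
  have h2 : H' * R ^ γ ≤ 1 / 64 := hsm _ hR0.le (min_le_right _ _)
  have hKR : 0 ≤ K₂ * R := by positivity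
  have hLμ : L₀ ≤ L₀ * μ := le_mul_of_one_le_right hL₀.le hμ
  set L : ℝ := L₀ * μ + 1 + K₂ * R with hL
  have hL1 : 1 ≤ L := by linarith
  have hL3 : K₂ * R ≤ L ^ 3 := by
    have : L ≤ L ^ 3 := le_self_pow₀ hL1 (by norm_num)
    linarith
  have hβ := expo_pos hα hγ
  obtain ⟨k1, k2⟩ := holder_of_expansions (u := u) (s := ball x₁ (ρ₂ / 2)) (t₀ := R / 4 / μ)
    (B := L * μ) (by positivity) (by positivity) hD hβ (expo_lt hα hα1 hγ)
    (fun c hc => abs_lip (isOpen_ball.mem_nhds (ball_subset_ball (half_le_self hρ₂.le) hc))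
      fun x hx y hy => (hlip x hx y hy).trans (mul_le_mul_of_nonneg_right
        (le_trans (by linarith) (le_mul_of_one_le_right (by linarith) hμ)) (norm_nonneg _)))
    (fun c hc => by
      obtain ⟨S, T, hS, hST, hTS, hS1, hT1, hAA⟩ :=
        hfr c (ball_subset_ball (by linarith) hc)
      have hin : ∀ y ∈ closedBall (0 : E) R, c + T y ∈ ball x₁ ρ₂ := by
        intro y hy
        rw [mem_closedBall, dist_zero_right] at hy
        rw [mem_ball, dist_eq_norm] at hc ⊢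
        have h6 : c + T y - x₁ = (c - x₁) + T y := by abel
        have h7 := (hT1 y).trans (mul_le_mul_of_nonneg_left hy (by linarith))
        have h8 := norm_add_le (c - x₁) (T y)
        rw [h6]
        linarith
      obtain ⟨p, hp⟩ := hcore _ K₂ (fun y => u (c + T y)) 0 R L hR0 (by linarith) hK₂0 hL3
        ((hv.change (b' := fun _ => K₂) hS hST hTS c fun _ => le_rfl).mono hin)
        ((hv'.change (b' := fun _ => K₂) hS hST hTS c fun _ => le_rfl).mono hin)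
        (fun y hy => by
          refine (hAA y (hΩ₂ (hin y hy))).trans ?_
          rw [sub_zero, Real.div_rpow (norm_nonneg _) hR0.le]
          have h3 : 0 < R ^ γ := by positivity
          have h4 : H' * ‖y‖ ^ γ = H' * R ^ γ * (‖y‖ ^ γ / R ^ γ) := by field_simp
          have h5 := mul_le_mul_of_nonneg_right h2 (by positivity : 0 ≤ ‖y‖ ^ γ / R ^ γ)
          linarith)
        (fun x hx y hy => by
          refine (hlip _ (hin x hx) _ (hin y hy)).trans ?_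
          rw [add_sub_add_left_eq_sub, ← map_sub]
          have h3 := mul_le_mul_of_nonneg_left (hT1 (x - y)) hL₀.le
          have h4 := mul_le_mul_of_nonneg_right (show L₀ * μ ≤ L by linarith) (norm_nonneg (x - y))
          linarith)
      refine ⟨S p, fun y hy => ?_⟩
      have h3 : ‖S (y - c)‖ ≤ μ * ‖y - c‖ := hS1 _
      have h4 : μ * ‖y - c‖ ≤ R / 4 := by
        rw [le_div_iff₀ (by linarith)] at hy
        linarith
      have h5 := hp (S (y - c)) (by rw [sub_zero]; linarith)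
      simp only [hTS, map_zero, add_zero, add_sub_cancel, sub_zero] at h5
      rw [hS]
      refine h5.trans ?_
      have h6 : (‖S (y - c)‖ / (R / 4)) ^ expo α γ ≤ (‖y - c‖ / (R / 4 / μ)) ^ expo α γ := by
        apply Real.rpow_le_rpow (by positivity) _ hβ.le
        rw [div_div_eq_mul_div ‖y - c‖]
        exact div_le_div_of_nonneg_right (by linarith) (by positivity)
      calc D * L * ‖S (y - c)‖ * (‖S (y - c)‖ / (R / 4)) ^ expo α γ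
          ≤ D * L * (μ * ‖y - c‖) * (‖y - c‖ / (R / 4 / μ)) ^ expo α γ := by gcongr
        _ = _ := by ring)
  refine ⟨ρ₂ / 2, by positivity, 576 * D * (L * μ) / (12 * (R / 4 / μ)) ^ expo α γ,
    fun x hx => (k1 x hx).1, fun x hx y hy => (k2 x hx y hy).trans (le_of_eq ?_)⟩
  rw [Real.div_rpow (norm_nonneg _) (by positivity)]
  ring

end Vale.Agent.N080
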