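import Vale.Agent.N080.Camp

/-!
Viscosity subsolutions for the operator `D²φ (A ∇φ, A ∇φ)`: radial barriers and linear changes
of variables.
-/

set_option linter.unusedSectionVars false

namespace Vale.Agent.N080

open Vale.Agent.P080 Metric Set Filter
open scoped RealInnerProductSpace Topology

variable {E : Type*} [NormedAddCommGroup E] [InnerProductSpace ℝ E] [CompleteSpace E]

theorem hess_line {φ : E → ℝ} {z : E} (hφ : ContDiffAt ℝ 2 φ z) (v : E) :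
    HasDerivAt (deriv fun t : ℝ => φ (z + t • v)) (fderiv ℝ (fderiv ℝ φ) z v v) 0 := by
  have h1 : ∀ᶠ y in 𝓝 z, ContDiffAt ℝ 2 φ y := hφ.eventually (by simp)
  have hline : Tendsto (fun t : ℝ => z + t • v) (𝓝 0) (𝓝 z) := by
    have : Continuous fun t : ℝ => z + t • v := by fun_prop
    simpa only [zero_smul, add_zero] using this.tendsto 0
  have h2 : ∀ᶠ t : ℝ in 𝓝 0, ContDiffAt ℝ 2 φ (z + t • v) := hline.eventually h1
  have hl : ∀ t : ℝ, HasDerivAt (fun t : ℝ => z + t • v) v t := by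
    intro t
    simpa using ((hasDerivAt_id t).smul_const v).const_add z
  have h3 : (deriv fun t : ℝ => φ (z + t • v)) =ᶠ[𝓝 0] fun t => fderiv ℝ φ (z + t • v) v := by
    filter_upwards [h2] with t ht
    have hd : DifferentiableAt ℝ φ (z + t • v) := ht.differentiableAt (by simp)
    exact (hd.hasFDerivAt.comp_hasDerivAt t (hl t)).deriv
  have hd2 : DifferentiableAt ℝ (fderiv ℝ φ) z := by
    have : ContDiffAt ℝ 1 (fderiv ℝ φ) z := hφ.fderiv_right (by norm_num)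
    exact this.differentiableAt (by simp)
  have h5 : HasDerivAt (fun t : ℝ => fderiv ℝ φ (z + t • v) v)
      (fderiv ℝ (fderiv ℝ φ) z v v) 0 := by
    have hd2' : HasFDerivAt (fderiv ℝ φ) (fderiv ℝ (fderiv ℝ φ) z) (z + (0 : ℝ) • v) := by
      simpa using hd2.hasFDerivAt
    have h6 := hd2'.comp_hasDerivAt (0 : ℝ) (hl 0)
    have h7 := h6.clm_apply (hasDerivAt_const (0 : ℝ) v)
    simpa using h7
  exact h5.congr_of_eventuallyEq h3

theorem contDiffAt_radial {g : ℝ → ℝ} {x z : E} (h : x ≠ z) (hg : ContDiffAt ℝ 2 g ‖x - z‖) :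
    ContDiffAt ℝ 2 (fun y : E => g ‖y - z‖) x := by
  have h1 : ContDiffAt ℝ 2 (fun y : E => ‖y - z‖) x := by
    apply ContDiffAt.norm ℝ (by fun_prop)
    exact sub_ne_zero.2 h
  exact hg.comp x h1

theorem gradient_radial {g : ℝ → ℝ} {g₁ : ℝ} {x z : E} (h : x ≠ z)
    (hg : HasDerivAt g g₁ ‖x - z‖) :
    gradient (fun y : E => g ‖y - z‖) x = g₁ • (‖x - z‖⁻¹ • (x - z)) := by
  have h1 := hg.comp_hasFDerivAt x (hasFDerivAt_norm_sub h)
  have h4 : HasGradientAt (fun y : E => g ‖y - z‖) (g₁ • (‖x - z‖⁻¹ • (x - z))) x := by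
    rw [hasGradientAt_iff_hasFDerivAt]
    refine HasFDerivAt.congr_fderiv h1 ?_
    ext y
    simp only [map_smul, FunLike.coe_smul, Pi.smul_apply,
      smul_eq_mul, InnerProductSpace.toDual_apply_apply, innerSL_apply_apply]
  exact h4.gradient

theorem hess_radial {g g₁ : ℝ → ℝ} {g₂ : ℝ} {x z : E} (h : x ≠ z)
    (hg : ContDiffAt ℝ 2 g ‖x - z‖) (hg1 : ∀ᶠ s in 𝓝 ‖x - z‖, HasDerivAt g (g₁ s) s)
    (hg2 : HasDerivAt g₁ g₂ ‖x - z‖) (v : E) :
    fderiv ℝ (fderiv ℝ fun y : E => g ‖y - z‖) x v v =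
      g₂ * ⟪‖x - z‖⁻¹ • (x - z), v⟫ ^ 2 +
        g₁ ‖x - z‖ * (‖v‖ ^ 2 - ⟪‖x - z‖⁻¹ • (x - z), v⟫ ^ 2) / ‖x - z‖ := by
  have h0 : 0 < ‖x - z‖ := norm_pos_iff.2 (sub_ne_zero.2 h)
  have hl : ∀ t : ℝ, HasDerivAt (fun t : ℝ => x + t • v) v t := by
    intro t
    simpa using ((hasDerivAt_id t).smul_const v).const_add x
  set N : ℝ → ℝ := fun t => ‖x + t • v - z‖ with hN
  have hN0 : N 0 = ‖x - z‖ := by simp [hN]
  have hNc : Tendsto N (𝓝 0) (𝓝 ‖x - z‖) := by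
    have : Continuous N := by rw [hN]; fun_prop
    rw [← hN0]
    exact this.tendsto 0
  have hNd : ∀ t, 0 < N t → HasDerivAt N ((⟪x - z, v⟫ + t * ‖v‖ ^ 2) / N t) t := by
    intro t ht
    have hne : x + t • v ≠ z := sub_ne_zero.1 (norm_pos_iff.1 ht)
    have h1 := (hasFDerivAt_norm_sub hne).comp_hasDerivAt t (hl t)
    refine HasDerivAt.congr_deriv h1 ?_
    have h2 : x + t • v - z = (x - z) + t • v := by abel
    simp only [FunLike.coe_smul, Pi.smul_apply, smul_eq_mul, innerSL_apply_apply, hN]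
    rw [h2, inner_add_left, real_inner_smul_left, real_inner_self_eq_norm_sq]
    ring
  have h3 : (deriv fun t : ℝ => g ‖x + t • v - z‖) =ᶠ[𝓝 0]
      fun t => g₁ (N t) * ((⟪x - z, v⟫ + t * ‖v‖ ^ 2) / N t) := by
    filter_upwards [hNc.eventually hg1, hNc.eventually (lt_mem_nhds h0)] with t ht1 ht2
    exact (ht1.comp t (hNd t ht2)).deriv
  have h4 := hNd 0 (by rw [hN0]; exact h0)
  have h5 : HasDerivAt (fun t => g₁ (N t)) (g₂ * ((⟪x - z, v⟫ + 0 * ‖v‖ ^ 2) / N 0)) 0 := by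
    have hg2' : HasDerivAt g₁ g₂ (N 0) := by rw [hN0]; exact hg2
    exact hg2'.comp 0 h4
  have h6 : HasDerivAt (fun t : ℝ => ⟪x - z, v⟫ + t * ‖v‖ ^ 2) (‖v‖ ^ 2) 0 := by
    simpa using ((hasDerivAt_id (0 : ℝ)).mul_const (‖v‖ ^ 2)).const_add ⟪x - z, v⟫
  have h7 := (h5.fun_mul (h6.fun_div h4 (by rw [hN0]; exact h0.ne'))).congr_of_eventuallyEq h3
  rw [(hess_line (contDiffAt_radial h hg) v).unique h7, hN0, real_inner_smul_left]
  field_simp
  ring

/-- Viscosity subsolutions of `D²u (A ∇u, A ∇u) ≥ - b |∇u|` in `Ω`. -/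
def Sub (A : E → E →L[ℝ] E) (b : ℝ → ℝ) (u : E → ℝ) (Ω : Set E) : Prop :=
  ContinuousOn u Ω ∧ ∀ z ∈ Ω, ∀ φ : E → ℝ, ContDiff ℝ 2 φ →
    IsLocalMax (fun x => u x - φ x) z →
      -b ‖gradient φ z‖ ≤ fderiv ℝ (fderiv ℝ φ) z (A z (gradient φ z)) (A z (gradient φ z))

theorem Sub.loc {A : E → E →L[ℝ] E} {b : ℝ → ℝ} {u : E → ℝ} {Ω : Set E} (hu : Sub A b u Ω)
    {z : E} (hz : z ∈ Ω) {φ : E → ℝ} (hφ : ContDiffAt ℝ 2 φ z)
    (hmax : IsLocalMax (fun x => u x - φ x) z) :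
    -b ‖gradient φ z‖ ≤ fderiv ℝ (fderiv ℝ φ) z (A z (gradient φ z)) (A z (gradient φ z)) := by
  obtain ⟨ψ, h1, h2⟩ := exists_contDiff_eventuallyEq hφ
  have h3 : (fun x => u x - φ x) =ᶠ[𝓝 z] fun x => u x - ψ x := by
    filter_upwards [h2] with x hx
    rw [hx]
  have h4 := hu.2 z hz ψ h1 (hmax.congr h3)
  have h5 : fderiv ℝ (fderiv ℝ ψ) z = fderiv ℝ (fderiv ℝ φ) z := h2.fderiv.fderiv_eq
  have h6 : gradient ψ z = gradient φ z := by
    unfold gradient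
    rw [h2.fderiv_eq]
  rwa [h5, h6] at h4

theorem Sub.mono {A : E → E →L[ℝ] E} {b : ℝ → ℝ} {u : E → ℝ} {Ω Ω' : Set E} (hu : Sub A b u Ω)
    (h : Ω' ⊆ Ω) : Sub A b u Ω' :=
  ⟨hu.1.mono h, fun z hz => hu.2 z (h hz)⟩

/-- Comparison with radial barriers. -/
theorem Sub.radial [FiniteDimensional ℝ E] {A : E → E →L[ℝ] E} {b : ℝ → ℝ} {u : E → ℝ}
    {Ω V : Set E} (hu : Sub A b u Ω) (hV : IsOpen V) (hb : Bornology.IsBounded V)
    (hc : closure V ⊆ Ω) {z : E} (hz : z ∉ V) {g g₁ g₂ : ℝ → ℝ} (hgc : Continuous g)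
    (hg : ∀ s, 0 < s → ContDiffAt ℝ 2 g s) (hg1 : ∀ s, 0 < s → HasDerivAt g (g₁ s) s)
    (hg2 : ∀ s, 0 < s → HasDerivAt g₁ (g₂ s) s)
    (hy : ∀ y ∈ V, ∃ ω : ℝ, ‖A y - 1‖ ≤ ω ∧ ω ≤ 1 / 2 ∧ 0 ≤ g₁ ‖y - z‖ ∧ g₂ ‖y - z‖ ≤ 0 ∧
      g₁ ‖y - z‖ ^ 2 * (g₂ ‖y - z‖ / 4 + g₁ ‖y - z‖ * ω ^ 2 / ‖y - z‖) < -b (g₁ ‖y - z‖))
    (hf : ∀ x ∈ frontier V, u x ≤ g ‖x - z‖) : ∀ x ∈ V, u x ≤ g ‖x - z‖ := by
  by_contra hcon
  push Not at hcon
  obtain ⟨x1, hx1, hlt⟩ := hcon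
  have hcomp : IsCompact (closure V) := hb.isCompact_closure
  have hcont : ContinuousOn (fun y => u y - g ‖y - z‖) (closure V) := by
    refine (hu.1.mono hc).sub (Continuous.continuousOn ?_)
    exact hgc.comp (continuous_id.sub continuous_const).norm
  obtain ⟨x0, hx0, hmax⟩ := hcomp.exists_isMaxOn ⟨x1, subset_closure hx1⟩ hcont
  have hpos : 0 < u x0 - g ‖x0 - z‖ := by
    have := hmax (subset_closure hx1)
    simp only [mem_ofPred_eq] at this
    linarith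
  have hx0V : x0 ∈ V := by
    by_contra hx0V
    have := hf x0 (by rw [hV.frontier_eq]; exact ⟨hx0, hx0V⟩)
    linarith
  have hne : x0 ≠ z := fun h => hz (h ▸ hx0V)
  have h0 : 0 < ‖x0 - z‖ := norm_pos_iff.2 (sub_ne_zero.2 hne)
  have hloc : IsLocalMax (fun y => u y - g ‖y - z‖) x0 :=
    (hmax.on_subset subset_closure).isLocalMax (hV.mem_nhds hx0V)
  have h1 := hu.loc (hc hx0) (contDiffAt_radial hne (hg _ h0)) hloc
  have hev : ∀ᶠ s in 𝓝 ‖x0 - z‖, HasDerivAt g (g₁ s) s := by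
    filter_upwards [lt_mem_nhds h0] with s hs using hg1 s hs
  rw [hess_radial hne (hg _ h0) hev (hg2 _ h0), gradient_radial hne (hg1 _ h0)] at h1
  obtain ⟨ω, hA, hω, k1, k2, k3⟩ := hy x0 hx0V
  set e : E := ‖x0 - z‖⁻¹ • (x0 - z) with he
  have he1 : ‖e‖ = 1 := by
    rw [he, norm_smul, norm_inv, norm_norm, inv_mul_cancel₀ h0.ne']
  set a : ℝ := g₁ ‖x0 - z‖ with ha
  set d : E := (A x0 - 1) e with hd
  have hd1 : ‖d‖ ≤ ω := by
    have := (A x0 - 1).le_opNorm e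
    rw [he1, mul_one] at this
    exact this.trans hA
  have hAe : A x0 (a • e) = a • (e + d) := by
    rw [map_smul, hd]
    simp
  have hed : |⟪e, d⟫| ≤ ω := by
    have := abs_real_inner_le_norm e d
    rw [he1, one_mul] at this
    exact this.trans hd1
  have h2 : ⟪e, a • (e + d)⟫ = a * (1 + ⟪e, d⟫) := by
    rw [real_inner_smul_right, inner_add_right, real_inner_self_eq_norm_sq, he1]; ring
  have h3 : ‖a • (e + d)‖ ^ 2 = a ^ 2 * (1 + 2 * ⟪e, d⟫ + ‖d‖ ^ 2) := by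
    rw [norm_smul, mul_pow, norm_add_sq_real, he1, Real.norm_eq_abs, sq_abs]; ring
  have h4 : ‖a • e‖ = a := by rw [norm_smul, he1, mul_one, Real.norm_of_nonneg k1]
  rw [hAe, h2, h3, h4] at h1
  have h5 : 1 / 4 ≤ (1 + ⟪e, d⟫) ^ 2 := by nlinarith [(abs_le.1 hed).1]
  have h6 : ‖d‖ ^ 2 ≤ ω ^ 2 := pow_le_pow_left₀ (norm_nonneg _) hd1 2
  have h7 : g₂ ‖x0 - z‖ * (a * (1 + ⟪e, d⟫)) ^ 2 ≤ a ^ 2 * (g₂ ‖x0 - z‖ / 4) := by
    have := mul_le_mul_of_nonneg_left h5 (mul_nonneg (sq_nonneg a) (neg_nonneg.2 k2))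
    nlinarith
  have h8 : a * (a ^ 2 * (1 + 2 * ⟪e, d⟫ + ‖d‖ ^ 2) - (a * (1 + ⟪e, d⟫)) ^ 2) / ‖x0 - z‖ ≤
      a ^ 2 * (a * ω ^ 2 / ‖x0 - z‖) := by
    rw [← mul_div_assoc]
    apply div_le_div_of_nonneg_right _ h0.le
    have h9 : ‖d‖ ^ 2 - ⟪e, d⟫ ^ 2 ≤ ω ^ 2 := by nlinarith [sq_nonneg ⟪e, d⟫]
    have := mul_le_mul_of_nonneg_left h9 (pow_nonneg k1 3)
    nlinarith
  nlinarith

/-- Linear change of variables by a symmetric invertible map. -/
theorem Sub.change {A : E → E →L[ℝ] E} {b b' : ℝ → ℝ} {u : E → ℝ} {Ω : Set E}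
    (hu : Sub A b u Ω) {S T : E →L[ℝ] E} (hS : ∀ v w, ⟪S v, w⟫ = ⟪v, S w⟫)
    (hST : ∀ v, S (T v) = v) (hTS : ∀ v, T (S v) = v) (c : E)
    (hb : ∀ p, b ‖S p‖ ≤ b' ‖p‖) :
    Sub (fun y => S ∘L A (c + T y) ∘L S) b' (fun y => u (c + T y)) {y | c + T y ∈ Ω} := by
  have hcT : Continuous fun y => c + T y := by fun_prop
  refine ⟨hu.1.comp hcT.continuousOn fun y hy => hy, ?_⟩
  intro y hy ψ hψ hmax
  set φ : E → ℝ := fun x => ψ (S (x - c)) with hφ
  have hφc : ContDiff ℝ 2 φ := hψ.comp (S.contDiff.comp (contDiff_id.sub contDiff_const))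
  have hy0 : S (c + T y - c) = y := by rw [add_sub_cancel_left, hST]
  have hmax' : IsLocalMax (fun x => u x - φ x) (c + T y) := by
    have h1 : ContinuousAt (fun x => S (x - c)) (c + T y) := by fun_prop
    have h2 : IsLocalMax (fun x => u (c + T x) - ψ x) ((fun x => S (x - c)) (c + T y)) := by
      simp only [hy0]; exact hmax
    have h3 := IsLocalMax.comp_continuous (g := fun x => S (x - c)) (b := c + T y) h2 h1
    refine h3.congr (Eventually.of_forall fun x => ?_)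
    simp only [Function.comp, hTS, hφ, add_sub_cancel]
  have h1 := hu.2 _ hy φ hφc hmax'
  have hgr : gradient φ (c + T y) = S (gradient ψ y) := by
    have h2 : HasFDerivAt ψ (fderiv ℝ ψ y) (S (c + T y - c)) := by
      rw [hy0]; exact (hψ.differentiable (by simp) y).hasFDerivAt
    have h3 : HasFDerivAt (fun x => S (x - c)) S (c + T y) := by
      have := S.hasFDerivAt.comp (c + T y) ((hasFDerivAt_id (c + T y)).sub_const c)
      rw [ContinuousLinearMap.comp_id] at this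
      exact this
    have h4 : HasGradientAt φ (S (gradient ψ y)) (c + T y) := by
      rw [hasGradientAt_iff_hasFDerivAt]
      refine HasFDerivAt.congr_fderiv (h2.comp (c + T y) h3) ?_
      ext w
      rw [InnerProductSpace.toDual_apply_apply, hS, gradient, InnerProductSpace.toDual_symm_apply]
      rfl
    exact h4.gradient
  have hh : ∀ v, fderiv ℝ (fderiv ℝ φ) (c + T y) v v = fderiv ℝ (fderiv ℝ ψ) y (S v) (S v) := by
    intro v
    have h2 := hess_line (hφc.contDiffAt (x := c + T y)) v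
    have h3 := hess_line (hψ.contDiffAt (x := y)) (S v)
    have h4 : (fun t : ℝ => φ (c + T y + t • v)) = fun t : ℝ => ψ (y + t • S v) := by
      funext t
      have : c + T y + t • v - c = T y + t • v := by abel
      simp only [hφ]
      rw [this, map_add, map_smul, hST]
    rw [h4] at h2
    exact h2.unique h3
  rw [hh, hgr] at h1
  have h5 := hb (gradient ψ y)
  simp only [ContinuousLinearMap.comp_apply]
  linarith

end Vale.Agent.N080
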